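import Vale.Agent.P015.H807.Defs

/-!
Graphs of Gaussian primes with growing steps.
-/

namespace Vale.Agent.P015.R3.H7

/-- The graph `H_c`: its vertices are all Gaussian primes, and two distinct Gaussian primes
`z`, `w` are joined when `|z - w| ≤ (log (|z| + |w| + 16)) ^ c`. -/
def growGraph (c : ℝ) : SimpleGraph {z : GaussianInt // Prime z} where
  Adj z w := z ≠ w ∧ dist (GaussianInt.toComplex z.1) (GaussianInt.toComplex w.1) ≤
    (Real.log (‖GaussianInt.toComplex z.1‖ + ‖GaussianInt.toComplex w.1‖ + 16)) ^ c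
  symm := ⟨fun z w h => ⟨h.1.symm, by
    rw [dist_comm, add_comm ‖GaussianInt.toComplex w.1‖]; exact h.2⟩⟩
  loopless := ⟨fun z h => h.1 rfl⟩

/-- The width function `exp ((log (r + 16)) ^ b)`. -/
noncomputable def wide (b r : ℝ) : ℝ := Real.exp ((Real.log (r + 16)) ^ b)

end Vale.Agent.P015.R3.H7
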