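import Vale.Agent.P015.R3.H7.Grow

/-!
Growing steps: few primes in large components, sparse blocking sets.
-/

open Finset Filter Topology

namespace Vale.Agent.P015.R3.H7

open Vale.Agent.P015

theorem induce_walk' {G : SimpleGraph {z : GaussianInt // Prime z}}
    (S : Set {z : GaussianInt // Prime z}) {x y : S} (p : (G.induce S).Walk x y) :
    ∃ q : G.Walk x.1 y.1, ∀ v ∈ q.support, v ∈ S := by
  induction p with
  | nil =>
    refine ⟨SimpleGraph.Walk.nil, ?_⟩
    intro v hv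
    rw [SimpleGraph.Walk.support_nil, List.mem_singleton] at hv
    rw [hv]
    exact Subtype.property _
  | @cons a b c hab p ih =>
    obtain ⟨q, hq⟩ := ih
    have h1 : G.Adj a.1 b.1 := hab
    refine ⟨SimpleGraph.Walk.cons h1 q, ?_⟩
    intro v hv
    rw [SimpleGraph.Walk.support_cons, List.mem_cons] at hv
    rcases hv with hv | hv
    · rw [hv]; exact a.2
    · exact hq v hv

theorem comps_finite' {G : SimpleGraph {z : GaussianInt // Prime z}}
    (S : Set {z : GaussianInt // Prime z}) (R₁ : ℝ)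
    (h : ∀ z ∈ S, R₁ ≤ ‖GaussianInt.toComplex z.1‖ → ∃ ρ : ℝ,
      ∀ (w : {z : GaussianInt // Prime z}) (p : G.Walk z w), (∀ v ∈ p.support, v ∈ S) →
      dist (GaussianInt.toComplex z.1) (GaussianInt.toComplex w.1) ≤ ρ)
    (K : (G.induce S).ConnectedComponent) : K.supp.Finite := by
  have hbdd : ∃ R : ℝ, ∀ w : S, w ∈ K.supp → ‖GaussianInt.toComplex w.1‖ ≤ R := by
    by_cases hex : ∃ v : S, v ∈ K.supp ∧ R₁ ≤ ‖GaussianInt.toComplex v.1‖
    · obtain ⟨v, hv, hvR⟩ := hex
      obtain ⟨ρ, hρ⟩ := h v.1 v.2 hvR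
      refine ⟨‖GaussianInt.toComplex v.1‖ + ρ, ?_⟩
      intro w hw
      rw [SimpleGraph.ConnectedComponent.mem_supp_iff] at hv hw
      have hvw : (G.induce S).Reachable v w := by
        rw [← SimpleGraph.ConnectedComponent.eq, hv, hw]
      obtain ⟨p⟩ := hvw
      obtain ⟨q, hq⟩ := induce_walk' S p
      have h1 := hρ w.1 q hq
      have h2 := norm_le_add_dist v.1.1 w.1.1
      linarith only [h1, h2]
    · push Not at hex
      exact ⟨R₁, fun w hw => (hex w hw).le⟩
  obtain ⟨R, hR⟩ := hbdd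
  exact ((finite_norm_le R).preimage Subtype.val_injective.injOn).subset fun w hw => hR w hw

/-- Everything that is needed at radius `R`. -/
theorem eventually_scale {C : ℝ} (hC : 20 ≤ C) {b : ℝ} (hb0 : 0 < b) (hb : b < 1) :
    ∀ᶠ R : ℝ in atTop, ∃ (k : ℕ) (D : ℝ), D = (2 * Real.log (2 * R + 16)) ^ ((1 - b) / (2 * C)) ∧
      2 ≤ k ∧ 1 ≤ D ∧ C * D ^ C * (k * Real.log k) ≤ Real.log R ∧
      Real.exp (-(k : ℝ)) ≤ Real.exp (-((Real.log R) ^ b)) ∧ Real.log R ≤ R ∧ 16 ≤ R := by
  have hT : Tendsto (fun R : ℝ => Real.log (2 * R + 16)) atTop atTop :=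
    Real.tendsto_log_atTop.comp (tendsto_atTop_add_const_right _ _
      (tendsto_id.const_mul_atTop (by norm_num)))
  filter_upwards [hT.eventually (scale (by linarith : (1 : ℝ) ≤ C) hb0 hb
    (show (0 : ℝ) < 1 / 2 by norm_num)), eventually_ge_atTop (16 : ℝ)] with R hR hR16
  obtain ⟨h1, h2, h3⟩ := hR
  have hR0 : 0 < R := by linarith
  have hlogR : 1 ≤ Real.log R := by
    have h4 := log_sixteen_le (show (0 : ℝ) ≤ R - 16 by linarith)
    rw [sub_add_cancel] at h4
    linarith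
  have h4 : Real.log (2 * R + 16) ≤ 2 * Real.log R := by
    have h5 : 2 * R + 16 ≤ R ^ 2 := by nlinarith
    have h6 := Real.log_le_log (by linarith) h5
    rw [Real.log_pow] at h6
    push_cast at h6
    exact h6
  refine ⟨⌈(Real.log (2 * R + 16)) ^ b⌉₊, _, rfl, h1, h2, by linarith, ?_,
    by linarith [Real.log_le_sub_one_of_pos hR0], hR16⟩
  apply Real.exp_le_exp.2
  have h5 : (Real.log R) ^ b ≤ (Real.log (2 * R + 16)) ^ b :=
    Real.rpow_le_rpow (by linarith) (Real.log_le_log hR0 (by linarith)) hb0.le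
  have h6 := Nat.le_ceil ((Real.log (2 * R + 16)) ^ b)
  linarith

/-- The steps of `H_c` in the disc of radius `2 R`. -/
theorem step_in_disc {c R : ℝ} (hc0 : 0 ≤ c) (hc1 : c ≤ 1)
    {x y : {z : GaussianInt // Prime z}} (hxy : (growGraph c).Adj x y)
    (hx : ‖GaussianInt.toComplex x.1‖ ≤ 2 * R) :
    dist (GaussianInt.toComplex x.1) (GaussianInt.toComplex y.1) ≤
      (2 * Real.log (2 * R + 16)) ^ c := by
  refine (grow_step hc0 hc1 hxy).trans ?_
  have h1 := log_sixteen_le (norm_nonneg (GaussianInt.toComplex x.1))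
  apply Real.rpow_le_rpow (by linarith) _ hc0
  have h2 : Real.log (‖GaussianInt.toComplex x.1‖ + 16) ≤ Real.log (2 * R + 16) :=
    Real.log_le_log (by linarith [norm_nonneg (GaussianInt.toComplex x.1)]) (by linarith)
  linarith

/-- **Growing steps: few primes in large components.** -/
theorem grow_few (b : ℝ) (hb0 : 0 < b) (hb : b < 1) : ∃ c : ℝ, 0 < c ∧ ∀ᶠ R : ℝ in atTop,
    ∀ X : Finset {z : GaussianInt // Prime z},
    (∀ z ∈ X, ‖GaussianInt.toComplex z.1‖ ≤ R ∧ ∃ w, (growGraph c).Reachable z w ∧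
      Real.log R < dist (GaussianInt.toComplex z.1) (GaussianInt.toComplex w.1)) →
    (X.card : ℝ) ≤ R ^ 2 * Real.exp (-((Real.log R) ^ b)) := by
  obtain ⟨C₁, hC₁, hst⟩ := start_count
  set C : ℝ := C₁ + 20 with hCdef
  have hC : 20 ≤ C := by linarith
  have hc0 : 0 < (1 - b) / (2 * C) := div_pos (by linarith) (by linarith)
  have hc1 : (1 - b) / (2 * C) ≤ 1 := by
    rw [div_le_one (by linarith)]; linarith
  refine ⟨(1 - b) / (2 * C), hc0, ?_⟩
  filter_upwards [eventually_scale hC hb0 hb] with R hR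
  obtain ⟨k, D, hDdef, hk, hD, h1, h2, h3, hR16⟩ := hR
  intro X hX
  have hR0 : 0 < R := by linarith
  have hD0 : 0 < D := by linarith
  have hkl : 0 ≤ k * Real.log k :=
    mul_nonneg (Nat.cast_nonneg k) (Real.log_nonneg (by exact_mod_cast (by omega : 1 ≤ k)))
  obtain ⟨m, hm, hkm, hmD, hcount⟩ := hst D hD k hk
  have hexp : Real.exp (C₁ * D ^ C₁ * (k * Real.log k)) ≤ R := by
    have h4 : C₁ * D ^ C₁ * (k * Real.log k) ≤ Real.log R :=
      (const_mono (by linarith) (by linarith) hD hkl).trans h1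
    calc Real.exp (C₁ * D ^ C₁ * (k * Real.log k)) ≤ Real.exp (Real.log R) :=
          Real.exp_le_exp.2 h4
      _ = R := Real.exp_log hR0
  have hmlog : m * D ≤ Real.log R := by
    have h4 := kd_le hC hD hk
    have h5 : (m : ℝ) * D ≤ 5 * (k * D) * D := mul_le_mul_of_nonneg_right hmD hD0.le
    linarith
  have h5 := hcount R (by linarith) hexp 0 X (by
    intro z hz
    obtain ⟨hz1, w, ⟨p⟩, hw⟩ := hX z hz
    refine ⟨by rw [dist_zero_right]; exact hz1, ?_⟩
    obtain ⟨v, q, hv, -, -⟩ := grow_exit (r := Real.log R) hD0.le (GaussianInt.toComplex z.1)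
      (by
        intro x y hxy hx
        rw [hDdef]
        apply step_in_disc hc0.le hc1 hxy
        have h6 := norm_le_add_dist z.1 x.1
        rw [dist_comm] at h6
        linarith) p (by rw [dist_self]; linarith [Real.log_nonneg (by linarith : (1 : ℝ) ≤ R)])
      (by rw [dist_comm]; exact hw)
    refine startsPath_of_far hD0 (by omega) q ?_
    rw [dist_comm]
    linarith)
  have h6 : (X.card : ℝ) ≤ X.card * (16 * D) := by
    have : (0 : ℝ) ≤ X.card := Nat.cast_nonneg _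
    nlinarith
  exact h6.trans (h5.trans (mul_le_mul_of_nonneg_left h2 (by positivity)))

/-- Near-moats for growing steps. -/
theorem grow_annulus (b : ℝ) (hb0 : 0 < b) (hb : b < 1) : ∃ c : ℝ, 0 < c ∧ ∀ᶠ R : ℝ in atTop,
    ∃ F : Finset {z : GaussianInt // Prime z},
      (∀ z ∈ F, R ≤ ‖GaussianInt.toComplex z.1‖ ∧ ‖GaussianInt.toComplex z.1‖ ≤ 2 * R) ∧
      (F.card : ℝ) ≤ R * Real.exp (-((Real.log R) ^ b)) ∧
      ∀ (z w : {z : GaussianInt // Prime z}) (p : (growGraph c).Walk z w),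
        ‖GaussianInt.toComplex z.1‖ < R → 2 * R < ‖GaussianInt.toComplex w.1‖ →
        ∃ v ∈ p.support, v ∈ F := by
  obtain ⟨C₁, hC₁, hmoat⟩ := local_moat
  set C : ℝ := C₁ + 20 with hCdef
  have hC : 20 ≤ C := by linarith
  have hc0 : 0 < (1 - b) / (2 * C) := div_pos (by linarith) (by linarith)
  have hc1 : (1 - b) / (2 * C) ≤ 1 := by
    rw [div_le_one (by linarith)]; linarith
  refine ⟨(1 - b) / (2 * C), hc0, ?_⟩
  filter_upwards [eventually_scale hC hb0 hb] with R hR
  obtain ⟨k, D, hDdef, hk, hD, h1, h2, h3, hR16⟩ := hR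
  have hR0 : 0 < R := by linarith
  have hD0 : 0 < D := by linarith
  have hexp : Real.exp (C * D ^ C * (k * Real.log k)) ≤ R := by
    calc Real.exp (C * D ^ C * (k * Real.log k)) ≤ Real.exp (Real.log R) := Real.exp_le_exp.2 h1
      _ = R := Real.exp_log hR0
  obtain ⟨F, hF1, hF2, hF3⟩ := hmoat C (by linarith) D hD k hk R hexp 0
  refine ⟨F, ?_, hF2.trans (mul_le_mul_of_nonneg_left h2 hR0.le), ?_⟩
  · intro z hz
    have := hF1 z hz
    rwa [dist_zero_right] at this
  · intro z w p hz hw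
    obtain ⟨v, q, hv, hq1, -⟩ := grow_exit (r := 2 * R) hD0.le 0
      (by
        intro x y hxy hx
        rw [dist_zero_right] at hx
        rw [hDdef]
        exact step_in_disc hc0.le hc1 hxy hx) p (by rw [dist_zero_right]; linarith)
      (by rw [dist_zero_right]; exact hw)
    obtain ⟨x, hx1, hx2⟩ := hF3 z v q (by rw [dist_zero_right]; exact hz) hv
    exact ⟨x, hq1 x hx1, hx2⟩

theorem rpow_sub_mono {b s t : ℝ} (hb : b ≤ 1) (hs : 1 ≤ s) (hst : s ≤ t) :
    s - s ^ b ≤ t - t ^ b := by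
  have hs0 : 0 < s := by linarith
  have ht0 : 0 < t := by linarith
  have h1 : (t / s) ^ b ≤ t / s := by
    calc (t / s) ^ b ≤ (t / s) ^ (1 : ℝ) :=
          Real.rpow_le_rpow_of_exponent_le ((one_le_div hs0).2 hst) hb
      _ = t / s := Real.rpow_one _
  have h2 : t ^ b = s ^ b * (t / s) ^ b := by
    rw [← Real.mul_rpow hs0.le (by positivity)]
    congr 1; field_simp
  have h3 : s ^ b ≤ s := by
    calc s ^ b ≤ s ^ (1 : ℝ) := Real.rpow_le_rpow_of_exponent_le hs hb
      _ = s := Real.rpow_one s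
  have h4 : t ^ b - s ^ b ≤ s ^ b * (t / s - 1) := by
    rw [h2]
    have : 0 ≤ s ^ b := by positivity
    nlinarith
  have h5 : s ^ b * (t / s - 1) ≤ s * (t / s - 1) :=
    mul_le_mul_of_nonneg_right h3 (by rw [sub_nonneg]; exact (one_le_div hs0).2 hst)
  have h6 : s * (t / s - 1) = t - s := by field_simp
  linarith

theorem saving_mono'' {b x y : ℝ} (hb : b ≤ 1) (hx : Real.exp 1 ≤ x) (hxy : x ≤ y) :
    x * Real.exp (-((Real.log x) ^ b)) ≤ y * Real.exp (-((Real.log y) ^ b)) := by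
  have hx0 : 0 < x := lt_of_lt_of_le (Real.exp_pos _) hx
  have hy0 : 0 < y := lt_of_lt_of_le hx0 hxy
  have h1 := rpow_sub_mono hb ((Real.le_log_iff_exp_le hx0).2 hx) (Real.log_le_log hx0 hxy)
  have h2 : ∀ z : ℝ, 0 < z → z * Real.exp (-((Real.log z) ^ b)) =
      Real.exp (Real.log z - (Real.log z) ^ b) := by
    intro z hz
    rw [sub_eq_add_neg, Real.exp_add, Real.exp_log hz]
  rw [h2 x hx0, h2 y hy0]
  exact Real.exp_le_exp.2 h1

theorem absorb {b b' : ℝ} (hb : b < b') (hb0 : 0 < b) : ∀ᶠ T : ℝ in atTop,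
    3 * T * Real.exp (-(T ^ b')) ≤ Real.exp (-(T ^ b)) := by
  have h1 : ∀ᶠ T : ℝ in atTop, 2 ≤ T ^ (b' - b) :=
    (tendsto_rpow_atTop (by linarith)).eventually (eventually_ge_atTop 2)
  have h2 := (isLittleO_log_rpow_atTop hb0).bound (show (0 : ℝ) < 1 / 2 by norm_num)
  filter_upwards [h1, h2, eventually_ge_atTop (3 : ℝ)] with T g1 g2 hT3
  have hT0 : 0 < T := by linarith
  have hlogT : 0 ≤ Real.log T := Real.log_nonneg (by linarith)
  rw [Real.norm_of_nonneg hlogT, Real.norm_of_nonneg (by positivity)] at g2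
  have h3 : T ^ b' = T ^ b * T ^ (b' - b) := by
    rw [← Real.rpow_add hT0]; ring_nf
  have h4 : 3 * T ≤ Real.exp (T ^ b) := by
    calc 3 * T ≤ T * T := by nlinarith
      _ = Real.exp (2 * Real.log T) := by rw [two_mul, Real.exp_add, Real.exp_log hT0]
      _ ≤ Real.exp (T ^ b) := Real.exp_le_exp.2 (by linarith)
  calc 3 * T * Real.exp (-(T ^ b')) ≤ Real.exp (T ^ b) * Real.exp (-(T ^ b')) :=
        mul_le_mul_of_nonneg_right h4 (Real.exp_pos _).le
    _ = Real.exp (T ^ b - T ^ b') := by rw [← Real.exp_add]; ring_nf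
    _ ≤ Real.exp (-(T ^ b)) := by
        apply Real.exp_le_exp.2
        have h5 : 0 ≤ T ^ b := by positivity
        rw [h3]
        nlinarith

/-- **Growing steps: sparse blocking sets.** -/
theorem grow_blocking (b : ℝ) (hb0 : 0 < b) (hb : b < 1) : ∃ c : ℝ, 0 < c ∧
    ∃ F : Set {z : GaussianInt // Prime z},
    (∀ K : ((growGraph c).induce Fᶜ).ConnectedComponent, K.supp.Finite) ∧
    ∀ᶠ R : ℝ in atTop, ∀ X : Finset {z : GaussianInt // Prime z},
      (∀ z ∈ X, z ∈ F ∧ ‖GaussianInt.toComplex z.1‖ ≤ R) →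
      (X.card : ℝ) ≤ R * Real.exp (-((Real.log R) ^ b)) := by
  classical
  set b' : ℝ := (1 + b) / 2 with hb'
  have hb'1 : b' < 1 := by rw [hb']; linarith
  have hbb' : b < b' := by rw [hb']; linarith
  obtain ⟨c, hc, hev⟩ := grow_annulus b' (by linarith) hb'1
  obtain ⟨R₀, hR₀⟩ := eventually_atTop.1 hev
  choose! Fn hF1 hF2 hF3 using hR₀
  set R₁ : ℝ := max R₀ (Real.exp 1) with hR₁
  refine ⟨c, hc, {v | ∃ n : ℕ, R₁ ≤ 2 ^ n ∧ v ∈ Fn (2 ^ n)}, ?_, ?_⟩
  · intro K
    induction K using SimpleGraph.ConnectedComponent.ind with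
    | h v₀ =>
      obtain ⟨n, hn⟩ := pow_unbounded_of_one_lt
        (max R₁ ‖GaussianInt.toComplex (v₀ : {z : GaussianInt // Prime z}).1‖)
        (one_lt_two (α := ℝ))
      have hn1 : R₁ ≤ 2 ^ n := (le_max_left _ _).trans hn.le
      have hn2 : ‖GaussianInt.toComplex (v₀ : {z : GaussianInt // Prime z}).1‖ < 2 ^ n :=
        lt_of_le_of_lt (le_max_right _ _) hn
      refine ((finite_norm_le (2 * 2 ^ n)).preimage Subtype.val_injective.injOn).subset ?_
      intro w hw
      rw [SimpleGraph.ConnectedComponent.mem_supp_iff, SimpleGraph.ConnectedComponent.eq] at hw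
      obtain ⟨p⟩ := hw.symm
      obtain ⟨q, hq⟩ := induce_walk' _ p
      rw [Set.mem_preimage, Set.mem_ofPred_eq]
      by_contra hcon
      obtain ⟨v, hv1, hv2⟩ := hF3 (2 ^ n) ((le_max_left _ _).trans hn1) v₀ w q hn2 (not_le.1 hcon)
      exact hq v hv1 ⟨n, hn1, hv2⟩
  · have h3 := Real.tendsto_log_atTop.eventually (absorb hbb' hb0)
    filter_upwards [h3, Real.tendsto_log_atTop.eventually (eventually_ge_atTop (1 : ℝ)),
      eventually_ge_atTop R₁] with R hR hR1 hRR
    intro X hX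
    have hR0 : 0 < R := lt_of_lt_of_le (lt_of_lt_of_le (Real.exp_pos _) (le_max_right _ _)) hRR
    set N : ℕ := ⌊Real.log R / Real.log 2⌋₊ + 1 with hN
    have hl2 : 1 / 2 ≤ Real.log 2 := by linarith only [Real.log_two_gt_d9]
    have hN3 : (N : ℝ) ≤ 3 * Real.log R := by
      have h4 : (⌊Real.log R / Real.log 2⌋₊ : ℝ) ≤ Real.log R / Real.log 2 :=
        Nat.floor_le (by positivity)
      have h5 : Real.log R / Real.log 2 ≤ 2 * Real.log R := by
        rw [div_le_iff₀ (by linarith only [hl2])]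
        nlinarith only [hl2, hR1]
      rw [hN]
      push_cast
      linarith only [hR1, h4, h5]
    set I : Finset ℕ := (Finset.range N).filter (fun n => R₁ ≤ (2 : ℝ) ^ n ∧ (2 : ℝ) ^ n ≤ R)
      with hI
    have hsub : X ⊆ I.biUnion (fun n => Fn (2 ^ n)) := by
      intro z hz
      obtain ⟨⟨n, hn1, hn2⟩, hz2⟩ := hX z hz
      rw [Finset.mem_biUnion]
      refine ⟨n, ?_, hn2⟩
      have h4 := (hF1 (2 ^ n) ((le_max_left _ _).trans hn1) z hn2).1
      have h5 : (2 : ℝ) ^ n ≤ R := h4.trans hz2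
      rw [hI, Finset.mem_filter, Finset.mem_range]
      refine ⟨?_, hn1, h5⟩
      have h6 : (n : ℝ) ≤ Real.log R / Real.log 2 := by
        rw [le_div_iff₀ (by linarith only [hl2]), ← Real.log_pow]
        exact Real.log_le_log (by positivity) h5
      have h7 : n ≤ ⌊Real.log R / Real.log 2⌋₊ := Nat.le_floor h6
      omega
    have hterm : ∀ n ∈ I, ((Fn (2 ^ n)).card : ℝ) ≤ R * Real.exp (-((Real.log R) ^ b')) := by
      intro n hn
      rw [hI, Finset.mem_filter] at hn
      exact (hF2 (2 ^ n) ((le_max_left _ _).trans hn.2.1)).trans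
        (saving_mono'' hb'1.le ((le_max_right _ _).trans hn.2.1) hn.2.2)
    calc (X.card : ℝ) ≤ ((I.biUnion (fun n => Fn (2 ^ n))).card : ℝ) := by
          exact_mod_cast Finset.card_le_card hsub
      _ ≤ ∑ n ∈ I, ((Fn (2 ^ n)).card : ℝ) := by exact_mod_cast Finset.card_biUnion_le
      _ ≤ ∑ n ∈ I, R * Real.exp (-((Real.log R) ^ b')) := Finset.sum_le_sum hterm
      _ = I.card * (R * Real.exp (-((Real.log R) ^ b'))) := by
          rw [Finset.sum_const, nsmul_eq_mul]
      _ ≤ (3 * Real.log R) * (R * Real.exp (-((Real.log R) ^ b'))) := by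
          apply mul_le_mul_of_nonneg_right _ (by positivity)
          refine le_trans ?_ hN3
          have : I.card ≤ N := (Finset.card_filter_le _ _).trans (Finset.card_range N).le
          exact_mod_cast this
      _ = R * (3 * Real.log R * Real.exp (-((Real.log R) ^ b'))) := by ring
      _ ≤ R * Real.exp (-((Real.log R) ^ b)) := mul_le_mul_of_nonneg_left hR hR0.le

end Vale.Agent.P015.R3.H7
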