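import Vale.Agent.P015.Bdl.B1

/-!
# P015, row M: Mertens modulo four with the right constant, by partial summation
-/

namespace Vale.Agent.P015.R3.H7.Q916

open Real Filter Topology Finset
open Vale.Agent.P015 (primesMod mem_primesMod sum_primesMod_add sum_primesMod_mono piAP_nat)

/-- `log log (x + 1) - log log x ≤ 1 / (x log x)` -/
lemma LL_step {x : ℝ} (hx : 2 ≤ x) :
    Real.log (Real.log (x + 1)) - Real.log (Real.log x) ≤ 1 / (x * Real.log x) := by
  have hx0 : 0 < x := by linarith
  have h1 : 0 < Real.log x := Real.log_pos (by linarith)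
  have h2 : 0 < Real.log (x + 1) := Real.log_pos (by linarith)
  rw [← Real.log_div h2.ne' h1.ne']
  have h3 := Real.log_le_sub_one_of_pos (x := Real.log (x + 1) / Real.log x) (by positivity)
  have h4 : Real.log (x + 1) - Real.log x ≤ 1 / x := by
    rw [← Real.log_div (by linarith) hx0.ne']
    have h5 := Real.log_le_sub_one_of_pos (x := (x + 1) / x) (by positivity)
    have h6 : (x + 1) / x - 1 = 1 / x := by field_simp; ring
    linarith
  have h7 : Real.log (x + 1) / Real.log x - 1 = (Real.log (x + 1) - Real.log x) / Real.log x := by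
    field_simp
  calc Real.log (Real.log (x + 1) / Real.log x) ≤ (Real.log (x + 1) - Real.log x) / Real.log x := by
        rw [← h7]; exact h3
    _ ≤ (1 / x) / Real.log x := by
        apply div_le_div_of_nonneg_right h4 h1.le
    _ = 1 / (x * Real.log x) := by rw [div_div]

lemma card_le (n : ℕ) : ((primesMod 0 n).card : ℝ) ≤ n := by
  have h : (primesMod 0 n).card ≤ (Finset.Ioc 0 n).card := Finset.card_le_card (Finset.filter_subset _ _)
  rw [Nat.card_Ioc] at h
  exact_mod_cast h

lemma step_sum (n m : ℕ) (h : n ≤ m) :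
    ∑ p ∈ primesMod n (m + 1), (1 : ℝ) / p = ∑ p ∈ primesMod n m, (1 : ℝ) / p +
      (((primesMod 0 (m + 1)).card : ℝ) - (primesMod 0 m).card) / ((m : ℝ) + 1) := by
  rw [sum_primesMod_add h (Nat.le_succ m)]
  congr 1
  have h1 := sum_primesMod_add (a := 0) (b := m) (c := m + 1) (by omega) (by omega)
    (fun _ => (1 : ℝ))
  simp only [sum_const, nsmul_eq_mul, mul_one] at h1
  rw [h1, add_sub_cancel_left]
  have h2 : ∀ p ∈ primesMod m (m + 1), (1 : ℝ) / p = 1 / ((m : ℝ) + 1) := by
    intro p hp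
    rw [mem_primesMod] at hp
    have : p = m + 1 := by omega
    subst this
    push_cast
    ring
  rw [Finset.sum_congr rfl h2, Finset.sum_const, nsmul_eq_mul]
  ring

/-- partial summation -/
lemma abel {a : ℝ} (ha : 0 ≤ a) {N : ℕ} (hN4 : 4 ≤ N)
    (hN : ∀ n : ℕ, N ≤ n → a * n / Real.log n ≤ ((primesMod 0 n).card : ℝ)) (n : ℕ) (hn : N ≤ n)
    (j : ℕ) : ((primesMod 0 (n + j)).card : ℝ) / ((n + j : ℕ) + 1) -
      ((primesMod 0 n).card : ℝ) / (n + 1) +
      a * (Real.log (Real.log ((n + j : ℕ) + 2)) - Real.log (Real.log ((n : ℝ) + 2))) ≤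
      ∑ p ∈ primesMod n (n + j), (1 : ℝ) / p := by
  induction j with
  | zero =>
    have : (0 : ℝ) ≤ ∑ p ∈ primesMod n (n + 0), (1 : ℝ) / p :=
      Finset.sum_nonneg fun p _ => by positivity
    simpa using this
  | succ j ih =>
    rw [← add_assoc, step_sum n (n + j) (by omega)]
    set k : ℕ := n + j + 1 with hk
    have hk5 : (5 : ℝ) ≤ k := by
      have : 5 ≤ k := by omega
      exact_mod_cast this
    have hkj : ((n + j : ℕ) : ℝ) = k - 1 := by rw [hk]; push_cast; ring
    have hlow := hN k (by omega)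
    have hlk : 0 < Real.log k := Real.log_pos (by linarith)
    have h1 := LL_step (x := (k : ℝ) + 1) (by linarith)
    have h2 : 1 / (((k : ℝ) + 1) * Real.log ((k : ℝ) + 1)) ≤ 1 / (((k : ℝ) + 1) * Real.log k) := by
      apply one_div_le_one_div_of_le (by positivity)
      apply mul_le_mul_of_nonneg_left _ (by linarith)
      exact Real.log_le_log (by linarith) (by linarith)
    have h3 : a * (Real.log (Real.log ((k : ℝ) + 2)) - Real.log (Real.log ((k : ℝ) + 1))) ≤
        ((primesMod 0 k).card : ℝ) * (1 / k - 1 / ((k : ℝ) + 1)) := by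
      have e1 : (k : ℝ) + 1 + 1 = k + 2 := by ring
      rw [e1] at h1
      calc a * (Real.log (Real.log ((k : ℝ) + 2)) - Real.log (Real.log ((k : ℝ) + 1)))
          ≤ a * (1 / (((k : ℝ) + 1) * Real.log k)) :=
            mul_le_mul_of_nonneg_left (h1.trans h2) ha
        _ = (a * k / Real.log k) * (1 / k - 1 / ((k : ℝ) + 1)) := by
            have : (k : ℝ) ≠ 0 := by linarith
            have : (k : ℝ) + 1 ≠ 0 := by linarith
            have := hlk.ne'
            field_simp
            ring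
        _ ≤ _ := by
            apply mul_le_mul_of_nonneg_right hlow
            have : 1 / ((k : ℝ) + 1) ≤ 1 / k := one_div_le_one_div_of_le (by linarith) (by linarith)
            linarith
    rw [hkj] at ih ⊢
    have e2 : (k : ℝ) - 1 + 1 = k := by ring
    have e3 : (k : ℝ) - 1 + 2 = k + 1 := by ring
    rw [e2, e3] at ih
    rw [e2]
    have e4 : (((primesMod 0 k).card : ℝ) - (primesMod 0 (n + j)).card) / k =
        ((primesMod 0 k).card : ℝ) * (1 / k) - ((primesMod 0 (n + j)).card : ℝ) / k := by ring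
    have e5 : ((primesMod 0 k).card : ℝ) / ((k : ℝ) + 1) =
        ((primesMod 0 k).card : ℝ) * (1 / ((k : ℝ) + 1)) := by ring
    rw [e4, e5]
    linarith

lemma exists_lower {a : ℝ} (ha : a < 1 / 2) :
    ∃ N : ℕ, 4 ≤ N ∧ ∀ n : ℕ, N ≤ n → a * n / Real.log n ≤ ((primesMod 0 n).card : ℝ) := by
  have hunit : IsUnit (1 : ZMod 4) := isUnit_one
  have h := Vale.Agent.PNT.piAP_mul_log_div_tendsto (q := 4) (a := (1 : ZMod 4)) hunit
  have htot : (Nat.totient 4 : ℝ) = 2 := by
    have : Nat.totient 4 = 2 := by decide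
    rw [this]; norm_num
  rw [htot] at h
  have hn : Tendsto (fun n : ℕ => (n : ℝ)) atTop atTop := tendsto_natCast_atTop_atTop
  have hlo := (h.comp hn).eventually (lt_mem_nhds (show a < (2:ℝ)⁻¹ by
    rw [← one_div]; exact ha))
  obtain ⟨N, hN⟩ := Filter.eventually_atTop.mp hlo
  refine ⟨max N 4, le_max_right _ _, fun n hn' => ?_⟩
  have h1 := hN n ((le_max_left _ _).trans hn')
  have hn4 : 4 ≤ n := (le_max_right _ _).trans hn'
  have hn0 : (0 : ℝ) < n := by
    have : 0 < n := by omega
    exact_mod_cast this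
  have hl : 0 < Real.log n := Real.log_pos (by
    have : 1 < n := by omega
    exact_mod_cast this)
  simp only [Function.comp] at h1
  rw [piAP_nat, lt_div_iff₀ hn0] at h1
  rw [div_le_iff₀ hl]
  exact h1.le

end Vale.Agent.P015.R3.H7.Q916

namespace Vale.Agent.P015.R3.H7

open Real Filter Topology Finset
open Vale.Agent.P015 (primesMod mem_primesMod sum_primesMod_add sum_primesMod_mono piAP_nat)
open Q916

theorem mertens_half (ε : ℝ) (hε : 0 < ε) : ∃ A : ℝ, 0 < A ∧ ∀ lam : ℝ, 0 ≤ lam → ∃ K : ℕ,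
    1 ≤ K ∧ (K : ℝ) ≤ A * Real.exp ((2 + ε) * lam) ∧ ∀ y : ℕ, 2 ≤ y →
      lam ≤ ∑ p ∈ (Finset.Ioc y (y ^ K)).filter (fun p => p.Prime ∧ p % 4 = 1), (1 : ℝ) / p := by
  set a : ℝ := 1 / (2 + ε) with ha
  have ha0 : 0 < a := by positivity
  have ha2 : a < 1 / 2 := by
    rw [ha]
    exact one_div_lt_one_div_of_lt (by norm_num) (by linarith)
  have hai : a * (2 + ε) = 1 := by rw [ha]; field_simp
  obtain ⟨N, hN4, hN⟩ := exists_lower ha2
  have hN0 : (4 : ℝ) ≤ N := by exact_mod_cast hN4
  have hnn : ∀ p : ℕ, (0 : ℝ) ≤ 1 / (p : ℝ) := fun p => by positivity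
  refine ⟨N * (2 * Real.exp ((2 + ε) * 2)), by positivity, fun lam hlam => ?_⟩
  set K₀ : ℕ := ⌈Real.exp ((2 + ε) * (lam + 2))⌉₊ with hK₀
  have hK1 : Real.exp ((2 + ε) * (lam + 2)) ≤ K₀ := Nat.le_ceil _
  have hexp1 : 1 ≤ Real.exp ((2 + ε) * (lam + 2)) := Real.one_le_exp (by positivity)
  have hK2 : (K₀ : ℝ) ≤ 2 * Real.exp ((2 + ε) * (lam + 2)) := by
    have := (Nat.ceil_lt_add_one (a := Real.exp ((2 + ε) * (lam + 2))) (by positivity)).le
    linarith
  have hK₀1 : (1 : ℝ) ≤ K₀ := hexp1.trans hK1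
  have hK₀n : 1 ≤ K₀ := by exact_mod_cast hK₀1
  have main : ∀ n : ℕ, N ≤ n → lam ≤ ∑ p ∈ primesMod n (n ^ K₀), (1 : ℝ) / p := by
    intro n hn
    have hn4 : (4 : ℝ) ≤ n := by
      have : 4 ≤ n := by omega
      exact_mod_cast this
    have hle : n ≤ n ^ K₀ := Nat.le_self_pow (by omega) n
    have h := abel ha0.le hN4 hN n hn (n ^ K₀ - n)
    rw [Nat.add_sub_cancel' hle] at h
    refine le_trans ?_ h
    have e1 : ((primesMod 0 n).card : ℝ) / (n + 1) ≤ 1 := by
      rw [div_le_one (by positivity)]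
      have := card_le n
      linarith
    have e2 : 0 ≤ ((primesMod 0 (n ^ K₀)).card : ℝ) / ((n ^ K₀ : ℕ) + 1) := by positivity
    have hln : 0 < Real.log n := Real.log_pos (by linarith)
    have hln1 : 1 ≤ Real.log n := by
      rw [Real.le_log_iff_exp_le (by linarith)]
      have := Real.exp_one_lt_d9
      linarith
    -- log log of the end
    have e3 : Real.log K₀ + Real.log (Real.log n) ≤ Real.log (Real.log ((n ^ K₀ : ℕ) + 2)) := by
      rw [← Real.log_mul (by linarith) hln.ne']
      apply Real.log_le_log (by positivity)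
      rw [← Real.log_pow]
      apply Real.log_le_log (by positivity)
      push_cast
      linarith
    have e4 : Real.log (Real.log ((n : ℝ) + 2)) ≤ Real.log (Real.log n) + 1 := by
      have f1 := LL_step (x := (n : ℝ)) (by linarith)
      have f2 := LL_step (x := (n : ℝ) + 1) (by linarith)
      have g1 : 1 / ((n : ℝ) * Real.log n) ≤ 1 / 2 := by
        apply one_div_le_one_div_of_le (by norm_num)
        nlinarith
      have hln' : 1 ≤ Real.log ((n : ℝ) + 1) := hln1.trans (Real.log_le_log (by linarith) (by linarith))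
      have g2 : 1 / (((n : ℝ) + 1) * Real.log ((n : ℝ) + 1)) ≤ 1 / 2 := by
        apply one_div_le_one_div_of_le (by norm_num)
        nlinarith
      have e : (n : ℝ) + 1 + 1 = n + 2 := by ring
      rw [e] at f2
      linarith
    have e5 : (2 + ε) * (lam + 2) ≤ Real.log K₀ := by
      rw [Real.le_log_iff_exp_le (by linarith)]
      exact hK1
    have e6 : lam + 2 ≤ a * Real.log K₀ := by
      have := mul_le_mul_of_nonneg_left e5 ha0.le
      rw [← mul_assoc, hai, one_mul] at this
      exact this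
    have e7 : a * (Real.log K₀ - 1) ≤ a * (Real.log (Real.log ((n ^ K₀ : ℕ) + 2)) -
        Real.log (Real.log ((n : ℝ) + 2))) := mul_le_mul_of_nonneg_left (by linarith) ha0.le
    have e8 : a * (Real.log K₀ - 1) = a * Real.log K₀ - a := by ring
    linarith
  refine ⟨N * K₀, Nat.mul_pos (by omega) (by omega), ?_, fun y hy => ?_⟩
  · push_cast
    have e : Real.exp ((2 + ε) * (lam + 2)) = Real.exp ((2 + ε) * 2) * Real.exp ((2 + ε) * lam) := by
      rw [← Real.exp_add]
      congr 1
      ring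
    rw [e] at hK2
    calc (N : ℝ) * K₀ ≤ N * (2 * (Real.exp ((2 + ε) * 2) * Real.exp ((2 + ε) * lam))) :=
          mul_le_mul_of_nonneg_left hK2 (by linarith)
      _ = _ := by ring
  · change lam ≤ ∑ p ∈ primesMod y (y ^ (N * K₀)), (1 : ℝ) / p
    by_cases hyN : N ≤ y
    · refine (main y hyN).trans (sum_primesMod_mono le_rfl ?_ _ hnn)
      refine Nat.pow_le_pow_right (by omega) ?_
      exact Nat.le_mul_of_pos_left _ (by omega)
    · refine (main N le_rfl).trans (sum_primesMod_mono (by omega) ?_ _ hnn)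
      rw [pow_mul]
      refine Nat.pow_le_pow_left ?_ _
      calc N ≤ 2 ^ N := Nat.lt_two_pow_self.le
        _ ≤ y ^ N := Nat.pow_le_pow_left hy _

end Vale.Agent.P015.R3.H7
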