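import Vale.Agent.P015.Bdl.B1

/-! Row S: the two-dimensional Brun sieve -/

namespace Vale.Agent.P015.R3.H7

open Finset Vale.Agent.P015

/-- pairs of integers of a box in residue classes mod `m` and in prescribed sets of pairs of
residues modulo the primes of `P` -/
theorem count_sieve2 (P : Finset ℕ) (hP : ∀ p ∈ P, p.Prime)
    (F : ∀ p : ℕ, Finset (ZMod p × ZMod p)) (a b : ℤ) (T : ℕ) :
    ∀ (m : ℕ), 0 < m → (∀ p ∈ P, Nat.Coprime m p) → ∀ c d : ℤ,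
    |(((((Finset.Ico a (a + T)) ×ˢ (Finset.Ico b (b + T))).filter (fun x : ℤ × ℤ =>
        (x.1 ≡ c [ZMOD m] ∧ x.2 ≡ d [ZMOD m]) ∧
        ∀ p ∈ P, ((x.1 : ZMod p), (x.2 : ZMod p)) ∈ F p)).card : ℕ) : ℝ) -
      ((T : ℝ) / m) ^ 2 * ∏ p ∈ P, (((F p).card : ℝ) / (p : ℝ) ^ 2)| ≤
      (∏ p ∈ P, ((F p).card : ℝ)) * (2 * T / (m * ∏ p ∈ P, (p : ℝ)) + 1) := by
  classical
  induction P using Finset.induction_on with
  | empty =>
    intro m hm _ c d
    have h1 := count_residue a T m hm c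
    have h2 := count_residue b T m hm d
    have h3 : (((Finset.Ico a (a + T)) ×ˢ (Finset.Ico b (b + T))).filter (fun x : ℤ × ℤ =>
        (x.1 ≡ c [ZMOD m] ∧ x.2 ≡ d [ZMOD m]) ∧
        ∀ p ∈ (∅ : Finset ℕ), ((x.1 : ZMod p), (x.2 : ZMod p)) ∈ F p)) =
        ((Finset.Ico a (a + T)).filter (fun t : ℤ => t ≡ c [ZMOD m])) ×ˢ
        ((Finset.Ico b (b + T)).filter (fun t : ℤ => t ≡ d [ZMOD m])) := by
      ext ⟨s, t⟩
      simp only [Finset.mem_filter, Finset.mem_product, Finset.notMem_empty, IsEmpty.forall_iff,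
        implies_true, and_true]
      tauto
    rw [h3, Finset.card_product, Nat.cast_mul, Finset.prod_empty, Finset.prod_empty,
      Finset.prod_empty, mul_one, one_mul, mul_one]
    have hX : (0 : ℝ) ≤ (T : ℝ) / m := by positivity
    generalize (((Finset.Ico a (a + T)).filter (fun t : ℤ => t ≡ c [ZMOD m])).card : ℝ) = N1 at h1 ⊢
    generalize (((Finset.Ico b (b + T)).filter (fun t : ℤ => t ≡ d [ZMOD m])).card : ℝ) = N2 at h2 ⊢
    have h4 : 2 * (T : ℝ) / m = 2 * ((T : ℝ) / m) := by ring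
    rw [h4]
    generalize (T : ℝ) / m = X at h1 h2 hX ⊢
    have h5 : N1 * N2 - X ^ 2 = (N1 - X) * (N2 - X) + X * (N1 - X) + X * (N2 - X) := by ring
    rw [h5]
    have h6 : |(N1 - X) * (N2 - X)| ≤ 1 := by
      rw [abs_mul]
      calc |N1 - X| * |N2 - X| ≤ 1 * 1 := mul_le_mul h1 h2 (abs_nonneg _) zero_le_one
        _ = 1 := one_mul 1
    have h7 : |X * (N1 - X)| ≤ X := by
      rw [abs_mul, abs_of_nonneg hX]
      calc X * |N1 - X| ≤ X * 1 := mul_le_mul_of_nonneg_left h1 hX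
        _ = X := mul_one X
    have h8 : |X * (N2 - X)| ≤ X := by
      rw [abs_mul, abs_of_nonneg hX]
      calc X * |N2 - X| ≤ X * 1 := mul_le_mul_of_nonneg_left h2 hX
        _ = X := mul_one X
    have h9 := abs_add_le ((N1 - X) * (N2 - X) + X * (N1 - X)) (X * (N2 - X))
    have h10 := abs_add_le ((N1 - X) * (N2 - X)) (X * (N1 - X))
    linarith
  | insert q P hq ih =>
    intro m hm hcop c d
    have hqp : q.Prime := hP q (Finset.mem_insert_self q P)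
    have hPp : ∀ p ∈ P, p.Prime := fun p hp => hP p (Finset.mem_insert_of_mem hp)
    have ih' := ih hPp (m * q) (Nat.mul_pos hm hqp.pos) (by
      intro p hp
      refine Nat.Coprime.mul_left (hcop p (Finset.mem_insert_of_mem hp)) ?_
      rw [Nat.coprime_primes hqp (hPp p hp)]
      rintro rfl
      exact hq hp)
    have hmq : Nat.Coprime m q := hcop q (Finset.mem_insert_self q P)
    choose c' hc' using crt_rep m q hqp.ne_zero hmq c
    choose d' hd' using crt_rep m q hqp.ne_zero hmq d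
    have hdecomp : (((Finset.Ico a (a + T)) ×ˢ (Finset.Ico b (b + T))).filter (fun x : ℤ × ℤ =>
        (x.1 ≡ c [ZMOD m] ∧ x.2 ≡ d [ZMOD m]) ∧
        ∀ p ∈ insert q P, ((x.1 : ZMod p), (x.2 : ZMod p)) ∈ F p)) =
        (F q).biUnion (fun y => ((Finset.Ico a (a + T)) ×ˢ (Finset.Ico b (b + T))).filter
          (fun x : ℤ × ℤ => (x.1 ≡ c' y.1 [ZMOD (m * q : ℕ)] ∧ x.2 ≡ d' y.2 [ZMOD (m * q : ℕ)]) ∧
          ∀ p ∈ P, ((x.1 : ZMod p), (x.2 : ZMod p)) ∈ F p)) := by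
      ext ⟨s, t⟩
      simp only [Finset.mem_filter, Finset.mem_biUnion, Finset.mem_insert, forall_eq_or_imp]
      constructor
      · rintro ⟨h1, ⟨h2, h3⟩, h4, h5⟩
        exact ⟨((s : ZMod q), (t : ZMod q)), h4, h1, ⟨(hc' _ s).2 ⟨h2, rfl⟩,
          (hd' _ t).2 ⟨h3, rfl⟩⟩, h5⟩
      · rintro ⟨⟨x, y⟩, hx, h1, ⟨h2, h3⟩, h4⟩
        obtain ⟨h5, h6⟩ := (hc' x s).1 h2
        obtain ⟨h7, h8⟩ := (hd' y t).1 h3
        refine ⟨h1, ⟨h5, h7⟩, ?_, h4⟩
        rw [h6, h8]; exact hx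
    have hcard : (((((Finset.Ico a (a + T)) ×ˢ (Finset.Ico b (b + T))).filter (fun x : ℤ × ℤ =>
        (x.1 ≡ c [ZMOD m] ∧ x.2 ≡ d [ZMOD m]) ∧
        ∀ p ∈ insert q P, ((x.1 : ZMod p), (x.2 : ZMod p)) ∈ F p)).card : ℕ) : ℝ) =
        ∑ y ∈ F q, (((((Finset.Ico a (a + T)) ×ˢ (Finset.Ico b (b + T))).filter
          (fun x : ℤ × ℤ => (x.1 ≡ c' y.1 [ZMOD (m * q : ℕ)] ∧ x.2 ≡ d' y.2 [ZMOD (m * q : ℕ)]) ∧
          ∀ p ∈ P, ((x.1 : ZMod p), (x.2 : ZMod p)) ∈ F p)).card : ℕ) : ℝ) := by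
      rw [hdecomp, Finset.card_biUnion, Nat.cast_sum]
      intro x _ y _ hxy
      rw [Function.onFun, Finset.disjoint_left]
      intro t ht ht'
      simp only [Finset.mem_filter] at ht ht'
      apply hxy
      apply Prod.ext
      · exact ((hc' x.1 t.1).1 ht.2.1.1).2.symm.trans ((hc' y.1 t.1).1 ht'.2.1.1).2
      · exact ((hd' x.2 t.2).1 ht.2.1.2).2.symm.trans ((hd' y.2 t.2).1 ht'.2.1.2).2
    rw [hcard, Finset.prod_insert hq, Finset.prod_insert hq, Finset.prod_insert hq]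
    have hsum : ((T : ℝ) / m) ^ 2 * ((((F q).card : ℝ) / (q : ℝ) ^ 2) *
          ∏ p ∈ P, (((F p).card : ℝ) / (p : ℝ) ^ 2)) =
        ∑ y ∈ F q, (((T : ℝ) / (m * q : ℕ)) ^ 2 *
          ∏ p ∈ P, (((F p).card : ℝ) / (p : ℝ) ^ 2)) := by
      rw [Finset.sum_const, nsmul_eq_mul, Nat.cast_mul]
      generalize ∏ p ∈ P, (((F p).card : ℝ) / (p : ℝ) ^ 2) = X
      rw [div_mul_eq_div_div, div_pow ((T : ℝ) / m) (q : ℝ) 2]
      ring
    rw [hsum, ← Finset.sum_sub_distrib]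
    refine le_trans (Finset.abs_sum_le_sum_abs _ _) ?_
    refine le_trans (Finset.sum_le_sum fun y _ => ih' (c' y.1) (d' y.2)) ?_
    rw [Finset.sum_const, nsmul_eq_mul]
    have e1 : ((m * q : ℕ) : ℝ) * ∏ p ∈ P, (p : ℝ) = m * (q * ∏ p ∈ P, (p : ℝ)) := by
      push_cast; ring
    rw [e1, mul_assoc]

/-- the numerical estimate of the tail -/
theorem exp_part (mu : ℝ) (r : ℕ) (hmu0 : 0 ≤ mu) (hmu : 8 * mu ≤ r + 1) :
    mu ^ (r + 1) / ((r + 1).factorial : ℝ) ≤ Real.exp (-mu) := by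
  have h5 := Real.pow_div_factorial_le_exp (x := ((r : ℝ) + 1)) (by positivity) (r + 1)
  have hr1 : (0 : ℝ) < (r : ℝ) + 1 := by positivity
  have h6 : mu ^ (r + 1) / ((r + 1).factorial : ℝ) =
      (mu / ((r : ℝ) + 1)) ^ (r + 1) * (((r : ℝ) + 1) ^ (r + 1) / ((r + 1).factorial : ℝ)) := by
    rw [div_pow]; (clear * -; field_simp)
  rw [h6]
  have h7 : mu / ((r : ℝ) + 1) ≤ 1 / 8 := by
    rw [div_le_div_iff₀ hr1 (by norm_num)]
    linarith only [hmu]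
  have h8 : (mu / ((r : ℝ) + 1)) ^ (r + 1) ≤ (1 / 8 : ℝ) ^ (r + 1) :=
    pow_le_pow_left₀ (by positivity) h7 _
  have h9 : (1 / 8 : ℝ) ≤ Real.exp (-2) := by
    rw [Real.exp_neg]
    rw [one_div]
    apply inv_anti₀ (Real.exp_pos _)
    have : Real.exp 2 = Real.exp 1 * Real.exp 1 := by rw [← Real.exp_add]; norm_num
    rw [this]
    have h10 := Real.exp_one_lt_d9
    have h11 := Real.exp_pos 1
    nlinarith only [h10, h11]
  calc (mu / ((r : ℝ) + 1)) ^ (r + 1) * (((r : ℝ) + 1) ^ (r + 1) / ((r + 1).factorial : ℝ))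
      ≤ (1 / 8 : ℝ) ^ (r + 1) * Real.exp ((r : ℝ) + 1) :=
        mul_le_mul h8 h5 (by positivity) (by positivity)
    _ ≤ (Real.exp (-2)) ^ (r + 1) * Real.exp ((r : ℝ) + 1) := by
        apply mul_le_mul_of_nonneg_right _ (Real.exp_pos _).le
        exact pow_le_pow_left₀ (by norm_num) h9 _
    _ = Real.exp (-((r : ℝ) + 1)) := by
        rw [← Real.exp_nat_mul, ← Real.exp_add]
        congr 1
        push_cast
        ring
    _ ≤ Real.exp (-mu) := by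
        apply Real.exp_le_exp.2
        linarith only [hmu]

theorem brun2 (P : Finset ℕ) (hP : ∀ p ∈ P, p.Prime) (F : ∀ p : ℕ, Finset (ZMod p × ZMod p))
    (κ Z : ℕ) (hF : ∀ p ∈ P, (F p).card ≤ κ * p)
    (hF2 : ∀ p ∈ P, ((F p).card : ℝ) ≤ (p : ℝ) ^ 2) (hZ1 : 1 ≤ Z) (hZ : ∀ p ∈ P, p ≤ Z)
    (a b : ℤ) (T r : ℕ) (hr : Even r)
    (hmu : 8 * ∑ p ∈ P, ((F p).card : ℝ) / (p : ℝ) ^ 2 ≤ r + 1) :
    ((((Finset.Ico a (a + T)) ×ˢ (Finset.Ico b (b + T))).filter (fun x : ℤ × ℤ =>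
        ∀ p ∈ P, ((x.1 : ZMod p), (x.2 : ZMod p)) ∉ F p)).card : ℝ) ≤
      2 * (T : ℝ) ^ 2 * Real.exp (-∑ p ∈ P, ((F p).card : ℝ) / (p : ℝ) ^ 2) +
        (2 * T + (Z : ℝ) ^ r) * (1 + κ * (P.card : ℝ)) ^ r := by
  classical
  set B := (Finset.Ico a (a + T)) ×ˢ (Finset.Ico b (b + T)) with hB
  set g : ℕ → ℝ := fun p => ((F p).card : ℝ) / (p : ℝ) ^ 2 with hg
  set ind : ℤ × ℤ → ℕ → ℝ := fun x p =>
    if ((x.1 : ZMod p), (x.2 : ZMod p)) ∈ F p then (1 : ℝ) else 0 with hind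
  have hind01 : ∀ t p, 0 ≤ ind t p ∧ ind t p ≤ 1 := by
    intro t p
    simp only [hind]
    split_ifs <;> norm_num
  have hcard : ((B.filter
      (fun x : ℤ × ℤ => ∀ p ∈ P, ((x.1 : ZMod p), (x.2 : ZMod p)) ∉ F p)).card : ℝ) =
      ∑ t ∈ B, ∏ p ∈ P, (1 - ind t p) := by
    rw [Finset.card_filter]
    push_cast
    refine Finset.sum_congr rfl fun t _ => ?_
    rw [← prod_ind]
    refine Finset.prod_congr rfl fun p _ => ?_
    simp only [hind]
    by_cases h : ((t.1 : ZMod p), (t.2 : ZMod p)) ∈ F p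
    · rw [if_neg (not_not.2 h), if_pos h, sub_self]
    · rw [if_pos h, if_neg h, sub_zero]
  have hstep : ∀ t, ∏ p ∈ P, (1 - ind t p) ≤ tsy P (ind t) r := by
    intro t
    have h := (trunc_bounds P (ind t) (fun p _ => hind01 t p) r).1
    rw [hr.neg_one_pow, one_mul] at h
    linarith
  -- counts
  have hcount : ∀ A ∈ P.powerset, A.card ≤ r → |(∑ t ∈ B, ∏ p ∈ A, ind t p) -
      (T : ℝ) ^ 2 * ∏ p ∈ A, g p| ≤ (2 * T + (Z : ℝ) ^ r) * ∏ p ∈ A, (κ : ℝ) := by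
    intro A hA hAr
    have hAP : A ⊆ P := Finset.mem_powerset.1 hA
    have h := count_sieve2 A (fun p hp => hP p (hAP hp)) F a b T 1 one_pos (by simp) 0 0
    have h1 : ((B.filter (fun x : ℤ × ℤ =>
        (x.1 ≡ 0 [ZMOD (1 : ℕ)] ∧ x.2 ≡ 0 [ZMOD (1 : ℕ)]) ∧
        ∀ p ∈ A, ((x.1 : ZMod p), (x.2 : ZMod p)) ∈ F p)).card : ℝ) =
        ∑ t ∈ B, ∏ p ∈ A, ind t p := by
      rw [Finset.card_filter]
      push_cast
      refine Finset.sum_congr rfl fun t _ => ?_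
      simp only [hind]
      rw [prod_ind]
      have e1 : t.1 ≡ 0 [ZMOD 1] := Int.modEq_one
      have e2 : t.2 ≡ 0 [ZMOD 1] := Int.modEq_one
      simp [e1, e2]
    rw [← hB, h1] at h
    simp only [Nat.cast_one, div_one, one_mul] at h
    refine le_trans h ?_
    have hpos : 0 < ∏ p ∈ A, (p : ℝ) :=
      Finset.prod_pos fun p hp => by exact_mod_cast (hP p (hAP hp)).pos
    have h2 : ∏ p ∈ A, ((F p).card : ℝ) ≤ (∏ p ∈ A, (κ : ℝ)) * ∏ p ∈ A, (p : ℝ) := by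
      rw [← Finset.prod_mul_distrib]
      refine Finset.prod_le_prod (fun p _ => Nat.cast_nonneg _) fun p hp => ?_
      exact_mod_cast hF p (hAP hp)
    have h3 : ∏ p ∈ A, (p : ℝ) ≤ (Z : ℝ) ^ r := by
      have h4 : ∏ p ∈ A, (p : ℝ) ≤ ∏ _p ∈ A, (Z : ℝ) :=
        Finset.prod_le_prod (fun p _ => Nat.cast_nonneg _) fun p hp => by
          exact_mod_cast hZ p (hAP hp)
      rw [Finset.prod_const] at h4
      refine le_trans h4 (pow_le_pow_right₀ (by exact_mod_cast hZ1) hAr)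
    have h5 : (0 : ℝ) ≤ 2 * T / (∏ p ∈ A, (p : ℝ)) + 1 := by positivity
    have h6 : (0 : ℝ) ≤ ∏ p ∈ A, (κ : ℝ) := Finset.prod_nonneg fun p _ => Nat.cast_nonneg _
    calc (∏ p ∈ A, ((F p).card : ℝ)) * (2 * T / (∏ p ∈ A, (p : ℝ)) + 1)
        ≤ ((∏ p ∈ A, (κ : ℝ)) * ∏ p ∈ A, (p : ℝ)) * (2 * T / (∏ p ∈ A, (p : ℝ)) + 1) :=
          mul_le_mul_of_nonneg_right h2 h5
      _ = (∏ p ∈ A, (κ : ℝ)) * (2 * T + ∏ p ∈ A, (p : ℝ)) := by
          generalize ∏ p ∈ A, (κ : ℝ) = K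
          have := hpos.ne'
          field_simp
      _ ≤ (∏ p ∈ A, (κ : ℝ)) * (2 * T + (Z : ℝ) ^ r) :=
          mul_le_mul_of_nonneg_left (by linarith) h6
      _ = _ := mul_comm _ _
  have hsum : ∑ t ∈ B, tsy P (ind t) r =
      ∑ j ∈ Finset.range (r + 1), (-1 : ℝ) ^ j * ∑ A ∈ P.powersetCard j,
        ∑ t ∈ B, ∏ p ∈ A, ind t p := by
    unfold tsy esy
    rw [Finset.sum_comm]
    refine Finset.sum_congr rfl fun j _ => ?_
    rw [← Finset.mul_sum, Finset.sum_comm]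
  have hbound : ∑ t ∈ B, tsy P (ind t) r ≤
      (T : ℝ) ^ 2 * tsy P g r + (2 * T + (Z : ℝ) ^ r) *
        ∑ j ∈ Finset.range (r + 1), esy P (fun _ => (κ : ℝ)) j := by
    rw [hsum]
    unfold tsy
    rw [Finset.mul_sum, Finset.mul_sum, ← Finset.sum_add_distrib]
    refine Finset.sum_le_sum fun j hjr => ?_
    unfold esy
    have hj : (T : ℝ) ^ 2 * ((-1 : ℝ) ^ j * ∑ A ∈ P.powersetCard j, ∏ p ∈ A, g p) +
        (2 * T + (Z : ℝ) ^ r) * ∑ A ∈ P.powersetCard j, ∏ p ∈ A, (κ : ℝ) =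
        ∑ A ∈ P.powersetCard j, ((-1 : ℝ) ^ j * ((T : ℝ) ^ 2 * ∏ p ∈ A, g p) +
          (2 * T + (Z : ℝ) ^ r) * ∏ p ∈ A, (κ : ℝ)) := by
      rw [Finset.sum_add_distrib, Finset.mul_sum, Finset.mul_sum, Finset.mul_sum]
      congr 1
      exact Finset.sum_congr rfl fun A _ => by ring
    rw [hj, Finset.mul_sum]
    refine Finset.sum_le_sum fun A hA => ?_
    have hA2 := Finset.mem_powersetCard.1 hA
    have h := hcount A (Finset.mem_powerset.2 hA2.1)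
      (by rw [hA2.2]; exact Nat.lt_succ_iff.1 (Finset.mem_range.1 hjr))
    rw [abs_le] at h
    rcases neg_one_pow_eq_or ℝ j with h1 | h1
    · rw [h1]; linarith only [h]
    · rw [h1]; linarith only [h]
  have hg01 : ∀ p ∈ P, 0 ≤ g p ∧ g p ≤ 1 := by
    intro p hp
    have hp0 : (0 : ℝ) < (p : ℝ) ^ 2 := by
      have : (0 : ℝ) < p := by exact_mod_cast (hP p hp).pos
      positivity
    constructor
    · simp only [hg]; positivity
    · simp only [hg]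
      rw [div_le_one hp0]
      exact hF2 p hp
  have hmain : tsy P g r ≤ ∏ p ∈ P, (1 - g p) + esy P g (r + 1) := by
    have h := (trunc_bounds P g hg01 r).2
    rw [hr.neg_one_pow, one_mul] at h
    linarith only [h]
  have h1 := brun_error P κ r
  have h2 := prod_one_sub_le_exp P g (fun p hp => (hg01 p hp).2)
  set mu := ∑ p ∈ P, g p with hmudef
  have hmu0 : 0 ≤ mu := Finset.sum_nonneg fun p hp => (hg01 p hp).1
  have h3 : esy P g (r + 1) ≤ Real.exp (-mu) := by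
    have h4 := esy_le P g (fun p hp => (hg01 p hp).1) (r + 1)
    rw [← hmudef] at h4
    refine le_trans h4 ?_
    exact exp_part mu r hmu0 hmu
  have hT : (0 : ℝ) ≤ (T : ℝ) ^ 2 := by positivity
  have h12 : (T : ℝ) ^ 2 * tsy P g r ≤ (T : ℝ) ^ 2 * (Real.exp (-mu) + Real.exp (-mu)) :=
    mul_le_mul_of_nonneg_left (hmain.trans (add_le_add h2 h3)) hT
  have hE : (0 : ℝ) ≤ 2 * T + (Z : ℝ) ^ r := by positivity
  have h13 := mul_le_mul_of_nonneg_left h1 hE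
  rw [hcard]
  calc ∑ t ∈ B, ∏ p ∈ P, (1 - ind t p)
      ≤ ∑ t ∈ B, tsy P (ind t) r := Finset.sum_le_sum fun t _ => hstep t
    _ ≤ _ := hbound
    _ ≤ _ := by linarith only [h12, h13]

end Vale.Agent.P015.R3.H7
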