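import Mathlib

/-!
# The forbidden set modulo a prime
-/

namespace Vale.Agent.P015.R3.H7

theorem forb_card {p : ℕ} [Fact p.Prime] (hp : p ≠ 2) (j : ZMod p) (hj : j * j = -1)
    (X Y : Finset (ZMod p)) :
    (Finset.univ.filter (fun u : ZMod p × ZMod p =>
      u.1 + j * u.2 ∈ X ∨ u.1 - j * u.2 ∈ Y)).card + X.card * Y.card
      = (X.card + Y.card) * p := by
  classical
  have h2 : (2 : ZMod p) ≠ 0 := by
    intro h
    have h3 : (2 : ZMod p) = ((2 : ℕ) : ZMod p) := by norm_num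
    rw [h3, ZMod.natCast_eq_zero_iff] at h
    exact hp ((Nat.prime_dvd_prime_iff_eq Fact.out Nat.prime_two).1 h)
  have hj0 : j ≠ 0 := by
    rintro rfl
    simp at hj
  have hinj : Function.Injective
      (fun u : ZMod p × ZMod p => (u.1 + j * u.2, u.1 - j * u.2)) := by
    rintro ⟨a, b⟩ ⟨c, d⟩ h
    simp only [Prod.mk.injEq] at h ⊢
    obtain ⟨h1, h3⟩ := h
    have h4 : 2 * (a - c) = 0 := by linear_combination h1 + h3
    have h5 : 2 * j * (b - d) = 0 := by linear_combination h1 - h3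
    exact ⟨sub_eq_zero.1 ((mul_eq_zero.1 h4).resolve_left h2),
      sub_eq_zero.1 ((mul_eq_zero.1 h5).resolve_left (mul_ne_zero h2 hj0))⟩
  have hbij := Finite.injective_iff_bijective.1 hinj
  have h6 : (Finset.univ.filter (fun u : ZMod p × ZMod p =>
      u.1 + j * u.2 ∈ X ∨ u.1 - j * u.2 ∈ Y)).card
      = ((X ×ˢ (Finset.univ : Finset (ZMod p))) ∪ ((Finset.univ : Finset (ZMod p)) ×ˢ Y)).card := by
    refine Finset.card_bij (fun u _ => (u.1 + j * u.2, u.1 - j * u.2)) (fun u hu => ?_)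
      (fun u _ v _ h => hinj h) (fun v hv => ?_)
    · simpa using hu
    · obtain ⟨u, hu⟩ := hbij.2 v
      refine ⟨u, ?_, hu⟩
      subst hu
      simpa using hv
  have h7 : (X ×ˢ (Finset.univ : Finset (ZMod p))) ∩ ((Finset.univ : Finset (ZMod p)) ×ˢ Y)
      = X ×ˢ Y := by
    ext v
    simp
  have h8 := Finset.card_union_add_card_inter (X ×ˢ (Finset.univ : Finset (ZMod p)))
    ((Finset.univ : Finset (ZMod p)) ×ˢ Y)
  rw [h7, Finset.card_product, Finset.card_product, Finset.card_product, Finset.card_univ,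
    ZMod.card] at h8
  rw [h6, h8]
  ring

end Vale.Agent.P015.R3.H7
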