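import Mathlib

/-!
# P015: the number of forbidden classes modulo a split prime
-/

namespace Vale.Agent.P015.R3.H7

theorem forb_card {p : ℕ} [Fact p.Prime] (hp : p ≠ 2) (j : ZMod p) (hj : j * j = -1)
    (X Y : Finset (ZMod p)) :
    (Finset.univ.filter (fun u : ZMod p × ZMod p =>
      u.1 + j * u.2 ∈ X ∨ u.1 - j * u.2 ∈ Y)).card + X.card * Y.card =
      (X.card + Y.card) * p := by
  classical
  have two : (2 : ZMod p) ≠ 0 := by
    intro h
    have h1 : ((2 : ℕ) : ZMod p) = 0 := by exact_mod_cast h
    rw [ZMod.natCast_eq_zero_iff] at h1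
    exact hp ((Nat.prime_dvd_prime_iff_eq Fact.out Nat.prime_two).1 h1)
  have hj0 : j ≠ 0 := by
    rintro rfl
    simp at hj
  set f : ZMod p × ZMod p → ZMod p × ZMod p := fun u => (u.1 + j * u.2, u.1 - j * u.2) with hf
  have hinj : Function.Injective f := by
    rintro ⟨a, b⟩ ⟨c, d⟩ h
    simp only [hf, Prod.mk.injEq] at h
    obtain ⟨h1, h2⟩ := h
    have h3 : (2 : ZMod p) * (a - c) = 0 := by linear_combination h1 + h2
    have h4 : (2 : ZMod p) * (j * (b - d)) = 0 := by linear_combination h1 - h2
    have h5 : a - c = 0 := (mul_eq_zero.1 h3).resolve_left two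
    have h6 : b - d = 0 := (mul_eq_zero.1 ((mul_eq_zero.1 h4).resolve_left two)).resolve_left hj0
    rw [sub_eq_zero.1 h5, sub_eq_zero.1 h6]
  set e := Equiv.ofBijective f (Finite.injective_iff_bijective.1 hinj) with he
  have key : ∀ S : Finset (ZMod p × ZMod p),
      (Finset.univ.filter (fun u => f u ∈ S)).card = S.card := by
    intro S
    have : Finset.univ.filter (fun u => f u ∈ S) = S.map e.symm.toEmbedding := by
      ext u
      simp only [Finset.mem_filter, Finset.mem_univ, true_and, Finset.mem_map_equiv,
        Equiv.symm_symm]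
      rfl
    rw [this, Finset.card_map]
  have hA : (Finset.univ.filter (fun u : ZMod p × ZMod p => u.1 + j * u.2 ∈ X)).card =
      X.card * p := by
    have := key (X ×ˢ Finset.univ)
    simpa [hf, Finset.card_product, ZMod.card] using this
  have hB : (Finset.univ.filter (fun u : ZMod p × ZMod p => u.1 - j * u.2 ∈ Y)).card =
      p * Y.card := by
    have := key (Finset.univ ×ˢ Y)
    simpa [hf, Finset.card_product, ZMod.card] using this
  have hAB : (Finset.univ.filter (fun u : ZMod p × ZMod p => u.1 + j * u.2 ∈ X) ∩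
      Finset.univ.filter (fun u : ZMod p × ZMod p => u.1 - j * u.2 ∈ Y)).card =
      X.card * Y.card := by
    have := key (X ×ˢ Y)
    rw [← Finset.filter_and]
    simpa [hf, Finset.card_product] using this
  rw [Finset.filter_or, ← hAB, Finset.card_union_add_card_inter, hA, hB]
  ring

end Vale.Agent.P015.R3.H7
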