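import Vale.Agent.P015.R3.H7.Moat

/-!
The two-dimensional moat theorem.
-/

open Finset Filter Topology

namespace Vale.Agent.P015.R3.H7

open Vale.Agent.P015

/-- **Two-dimensional moats.** For `n ≥ exp (C D ^ C)` no injective map of the `n × n` grid into
the Gaussian primes moves neighbours to distance at most `D`. -/
theorem grid_moat : ∃ C : ℝ, 0 < C ∧ ∀ D : ℝ, 1 ≤ D → ∀ n : ℕ, Real.exp (C * D ^ C) ≤ n →
    ∀ φ : ℕ → ℕ → {z : GaussianInt // Prime z},
      (∀ i < n, ∀ j < n, ∀ i' < n, ∀ j' < n, φ i j = φ i' j' → i = i' ∧ j = j') →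
      ∃ i < n, ∃ j < n,
        (i + 1 < n ∧
          D < dist (GaussianInt.toComplex (φ i j).1) (GaussianInt.toComplex (φ (i + 1) j).1)) ∨
        (j + 1 < n ∧
          D < dist (GaussianInt.toComplex (φ i j).1) (GaussianInt.toComplex (φ i (j + 1)).1)) := by
  classical
  obtain ⟨C₁, hC₁, h⟩ := comp_count
  refine ⟨25 * C₁ + 2, by linarith, ?_⟩
  intro D hD n hn φ hinj
  by_contra hcon
  push Not at hcon
  have hD0 : 0 < D := by linarith
  have hn1 : 1 ≤ n := by
    by_contra h0
    have h1 : n = 0 := by omega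
    rw [h1, Nat.cast_zero] at hn
    exact absurd hn (not_le.2 (Real.exp_pos _))
  have hnR : (1 : ℝ) ≤ n := by exact_mod_cast hn1
  have h1 : ∀ i j, i + 1 < n → j < n →
      dist (GaussianInt.toComplex (φ i j).1) (GaussianInt.toComplex (φ (i + 1) j).1) ≤ D :=
    fun i j hi hj => (hcon i (by omega) j hj).1 hi
  have h2 : ∀ i j, i < n → j + 1 < n →
      dist (GaussianInt.toComplex (φ i j).1) (GaussianInt.toComplex (φ i (j + 1)).1) ≤ D :=
    fun i j hi hj => (hcon i hi j (by omega)).2 hj
  have ha1 : ∀ i j, i + 1 < n → j < n → (moatGraph D).Adj (φ i j) (φ (i + 1) j) := by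
    intro i j hi hj
    refine ⟨fun he => ?_, h1 i j hi hj⟩
    have := (hinj i (by omega) j hj (i + 1) hi j hj he).1
    omega
  have ha2 : ∀ i j, i < n → j + 1 < n → (moatGraph D).Adj (φ i j) (φ i (j + 1)) := by
    intro i j hi hj
    refine ⟨fun he => ?_, h2 i j hi hj⟩
    have := (hinj i hi j (by omega) i hi (j + 1) hj he).2
    omega
  have hr1 : ∀ i, i < n → (moatGraph D).Reachable (φ 0 0) (φ i 0) := by
    intro i
    induction i with
    | zero => intro _; exact SimpleGraph.Reachable.refl _
    | succ i ih => intro hi; exact (ih (by omega)).trans (ha1 i 0 hi (by omega)).reachable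
  have hr2 : ∀ i, i < n → ∀ j, j < n → (moatGraph D).Reachable (φ 0 0) (φ i j) := by
    intro i hi j
    induction j with
    | zero => intro _; exact hr1 i hi
    | succ j ih => intro hj; exact (ih (by omega)).trans (ha2 i j hi hj).reachable
  have hd1 : ∀ i, i < n →
      dist (GaussianInt.toComplex (φ i 0).1) (GaussianInt.toComplex (φ 0 0).1) ≤ i * D := by
    intro i
    induction i with
    | zero => intro _; simp
    | succ i ih =>
      intro hi
      have h3 := dist_triangle (GaussianInt.toComplex (φ (i + 1) 0).1)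
        (GaussianInt.toComplex (φ i 0).1) (GaussianInt.toComplex (φ 0 0).1)
      have h4 := h1 i 0 hi (by omega)
      rw [dist_comm] at h4
      have h5 := ih (by omega)
      push_cast
      linarith
  have hd2 : ∀ i, i < n → ∀ j, j < n →
      dist (GaussianInt.toComplex (φ i j).1) (GaussianInt.toComplex (φ 0 0).1) ≤ i * D + j * D := by
    intro i hi j
    induction j with
    | zero => intro _; simpa using hd1 i hi
    | succ j ih =>
      intro hj
      have h3 := dist_triangle (GaussianInt.toComplex (φ i (j + 1)).1)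
        (GaussianInt.toComplex (φ i j).1) (GaussianInt.toComplex (φ 0 0).1)
      have h4 := h2 i j hi hj
      rw [dist_comm] at h4
      have h5 := ih (by omega)
      push_cast
      linarith
  set X : Finset {z : GaussianInt // Prime z} :=
    (Finset.range n ×ˢ Finset.range n).image (fun q => φ q.1 q.2) with hX
  have hXcard : X.card = n * n := by
    rw [hX, Finset.card_image_of_injOn, Finset.card_product, Finset.card_range]
    rintro ⟨a, b⟩ hab ⟨a', b'⟩ hab' he
    simp only [Finset.coe_product, Finset.coe_range, Set.mem_prod, Set.mem_Iio] at hab hab'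
    have := hinj a hab.1 b hab.2 a' hab'.1 b' hab'.2 he
    rw [Prod.mk.injEq]
    exact this
  have hlog2D : Real.log (2 * D) ≤ D := by
    rw [Real.log_mul (by norm_num) hD0.ne']
    linarith [Real.log_two_lt_d9, Real.log_le_sub_one_of_pos hD0]
  have hlog2D0 : 0 ≤ Real.log (2 * D) := Real.log_nonneg (by linarith)
  set k : ℕ := 2 + ⌈2 * Real.log (2 * D)⌉₊ with hk
  have hk1 : 2 + 2 * Real.log (2 * D) ≤ k := by
    rw [hk]; push_cast; linarith [Nat.le_ceil (2 * Real.log (2 * D))]
  have hk2 : (k : ℝ) ≤ 5 * D := by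
    have := Nat.ceil_lt_add_one (show 0 ≤ 2 * Real.log (2 * D) by linarith)
    rw [hk]; push_cast
    linarith
  have hk0 : (0 : ℝ) < k := by linarith
  have hlogk : Real.log k ≤ 5 * D := by
    linarith [Real.log_le_sub_one_of_pos hk0]
  have hlogk0 : 0 ≤ Real.log k := Real.log_nonneg (by linarith)
  have hexp : Real.exp (C₁ * D ^ C₁ * (k * Real.log k)) ≤ 2 * n * D := by
    have h3 : C₁ * D ^ C₁ * (k * Real.log k) ≤ (25 * C₁ + 2) * D ^ (25 * C₁ + 2) := by
      have h4 : k * Real.log k ≤ 25 * D ^ 2 := by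
        calc k * Real.log k ≤ (5 * D) * (5 * D) := mul_le_mul hk2 hlogk hlogk0 (by positivity)
          _ = 25 * D ^ 2 := by ring
      have h5 : D ^ C₁ * D ^ 2 ≤ D ^ (25 * C₁ + 2) := by
        rw [← Real.rpow_natCast, ← Real.rpow_add hD0]
        apply Real.rpow_le_rpow_of_exponent_le hD
        push_cast
        linarith
      calc C₁ * D ^ C₁ * (k * Real.log k) ≤ C₁ * D ^ C₁ * (25 * D ^ 2) :=
            mul_le_mul_of_nonneg_left h4 (by positivity)
        _ = 25 * C₁ * (D ^ C₁ * D ^ 2) := by ring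
        _ ≤ (25 * C₁ + 2) * D ^ (25 * C₁ + 2) :=
            mul_le_mul (by linarith) h5 (by positivity) (by positivity)
    refine (Real.exp_le_exp.2 h3).trans (hn.trans ?_)
    nlinarith
  have hmain := h C₁ le_rfl D hD k (by omega) (2 * n * D) hexp (GaussianInt.toComplex (φ 0 0).1) X
    (by
      intro x hx y hy
      rw [hX, Finset.mem_image] at hx hy
      obtain ⟨⟨a, b⟩, hab, rfl⟩ := hx
      obtain ⟨⟨a', b'⟩, hab', rfl⟩ := hy
      rw [Finset.mem_product, Finset.mem_range, Finset.mem_range] at hab hab'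
      exact (hr2 a hab.1 b hab.2).symm.trans (hr2 a' hab'.1 b' hab'.2))
    (by
      intro x hx
      rw [hX, Finset.mem_image] at hx
      obtain ⟨⟨a, b⟩, hab, rfl⟩ := hx
      rw [Finset.mem_product, Finset.mem_range, Finset.mem_range] at hab
      refine (hd2 a hab.1 b hab.2).trans ?_
      have h3 : (a : ℝ) ≤ n := by exact_mod_cast hab.1.le
      have h4 : (b : ℝ) ≤ n := by exact_mod_cast hab.2.le
      nlinarith)
  rw [hXcard] at hmain
  push_cast at hmain
  have hek : (2 * D) ^ 2 * Real.exp (-(k : ℝ)) ≤ Real.exp (-2) := by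
    have h3 : (2 * D) ^ 2 = Real.exp (2 * Real.log (2 * D)) := by
      rw [two_mul (Real.log (2 * D)), Real.exp_add, Real.exp_log (by positivity)]
      ring
    rw [h3, ← Real.exp_add]
    apply Real.exp_le_exp.2
    linarith
  have he2 : Real.exp (-2 : ℝ) < 1 := by
    rw [Real.exp_lt_one_iff]; norm_num
  have h3 : (2 * n * D) ^ 2 * Real.exp (-(k : ℝ)) = n * n * ((2 * D) ^ 2 * Real.exp (-(k : ℝ))) := by
    ring
  rw [h3] at hmain
  have h4 : (0 : ℝ) < n * n := by positivity
  nlinarith

end Vale.Agent.P015.R3.H7
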