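import Vale.Agent.P015.R3.H7.Moat
import Vale.Agent.P015.R3.H7.Defs

/-!
Growing steps: reduction to `G_D` with `D` a power of the logarithm.
-/

open Finset Filter Topology

namespace Vale.Agent.P015.R3.H7

open Vale.Agent.P015

theorem log_sixteen_le {x : ℝ} (hx : 0 ≤ x) : 2.7 ≤ Real.log (x + 16) := by
  have h1 : Real.log 16 ≤ Real.log (x + 16) := Real.log_le_log (by norm_num) (by linarith)
  have h2 : Real.log 16 = 4 * Real.log 2 := by
    rw [show (16 : ℝ) = 2 ^ 4 by norm_num, Real.log_pow]; push_cast; ring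
  linarith [Real.log_two_gt_d9]

/-- The length of an edge of `H_c` in terms of one endpoint. -/
theorem grow_step {c : ℝ} (hc0 : 0 ≤ c) (hc1 : c ≤ 1) {a b : {z : GaussianInt // Prime z}}
    (hab : (growGraph c).Adj a b) :
    dist (GaussianInt.toComplex a.1) (GaussianInt.toComplex b.1) ≤
      (2 * Real.log (‖GaussianInt.toComplex a.1‖ + 16)) ^ c := by
  set s := dist (GaussianInt.toComplex a.1) (GaussianInt.toComplex b.1) with hs
  set A := ‖GaussianInt.toComplex a.1‖ with hA
  set B := ‖GaussianInt.toComplex b.1‖ with hB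
  have hA0 : 0 ≤ A := norm_nonneg _
  have hB0 : 0 ≤ B := norm_nonneg _
  have hs0 : 0 ≤ s := dist_nonneg
  have h1 : s ≤ (Real.log (A + B + 16)) ^ c := hab.2
  have h2 : B ≤ A + s := norm_le_add_dist a.1 b.1
  have h3 : 2.7 ≤ Real.log (A + B + 16) := log_sixteen_le (by linarith)
  have h4 : (Real.log (A + B + 16)) ^ c ≤ Real.log (A + B + 16) := by
    calc (Real.log (A + B + 16)) ^ c ≤ (Real.log (A + B + 16)) ^ (1 : ℝ) :=
          Real.rpow_le_rpow_of_exponent_le (by linarith) hc1
      _ = Real.log (A + B + 16) := Real.rpow_one _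
  have h5 : s ≤ A + 16 := by
    by_contra hcon
    push Not at hcon
    have h6 : Real.log (A + B + 16) ≤ Real.log (3 * s) :=
      Real.log_le_log (by linarith) (by linarith)
    have h7 : Real.log (3 * s) ≤ Real.log 8 + s / 4 := by
      have h8 : Real.log (3 * s) = Real.log 12 + Real.log (s / 4) := by
        rw [← Real.log_mul (by norm_num) (by linarith)]
        congr 1; ring
      have h9 : Real.log (s / 4) ≤ s / 4 - 1 := Real.log_le_sub_one_of_pos (by linarith)
      have h10 : Real.log (12 : ℝ) ≤ Real.log 8 + 1 := by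
        have h11 : Real.log (12 : ℝ) ≤ Real.log 16 := Real.log_le_log (by norm_num) (by norm_num)
        have h12 : Real.log (16 : ℝ) = Real.log 8 + Real.log 2 := by
          rw [← Real.log_mul (by norm_num) (by norm_num)]; norm_num
        linarith [Real.log_two_lt_d9]
      linarith
    have h8 : Real.log (8 : ℝ) = 3 * Real.log 2 := by
      rw [show (8 : ℝ) = 2 ^ 3 by norm_num, Real.log_pow]; push_cast; ring
    linarith [Real.log_two_lt_d9]
  refine h1.trans (Real.rpow_le_rpow (by linarith) ?_ hc0)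
  have h6 : A + B + 16 ≤ (A + 16) ^ 2 := by nlinarith
  have h7 := Real.log_le_log (by linarith) h6
  rw [Real.log_pow] at h7
  push_cast at h7
  exact h7

/-- First exit of a walk of `H_c` from a disc. -/
theorem grow_exit {c D r : ℝ} (hD : 0 ≤ D) (x₀ : ℂ)
    (hstep : ∀ a b, (growGraph c).Adj a b → dist (GaussianInt.toComplex a.1) x₀ ≤ r →
      dist (GaussianInt.toComplex a.1) (GaussianInt.toComplex b.1) ≤ D)
    {z w : {z : GaussianInt // Prime z}} (p : (growGraph c).Walk z w)
    (hz : dist (GaussianInt.toComplex z.1) x₀ ≤ r) (hw : r < dist (GaussianInt.toComplex w.1) x₀) :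
    ∃ (v : {z : GaussianInt // Prime z}) (q : (moatGraph D).Walk z v),
      r < dist (GaussianInt.toComplex v.1) x₀ ∧ (∀ x ∈ q.support, x ∈ p.support) ∧
      ∀ x ∈ q.support, dist (GaussianInt.toComplex x.1) x₀ ≤ r + D := by
  induction p with
  | nil => exact absurd hz (not_le.2 hw)
  | @cons a b c' hab p ih =>
    have hab' : (moatGraph D).Adj a b := ⟨hab.1, hstep a b hab hz⟩
    by_cases hb : dist (GaussianInt.toComplex b.1) x₀ ≤ r
    · obtain ⟨v, q, h1, h2, h3⟩ := ih hb hw
      refine ⟨v, SimpleGraph.Walk.cons hab' q, h1, ?_, ?_⟩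
      · intro x hx
        rw [SimpleGraph.Walk.support_cons, List.mem_cons] at hx ⊢
        rcases hx with hx | hx
        · exact Or.inl hx
        · exact Or.inr (h2 x hx)
      · intro x hx
        rw [SimpleGraph.Walk.support_cons, List.mem_cons] at hx
        rcases hx with hx | hx
        · rw [hx]; linarith only [hz, hD]
        · exact h3 x hx
    · refine ⟨b, SimpleGraph.Walk.cons hab' SimpleGraph.Walk.nil, not_le.1 hb, ?_, ?_⟩
      · intro x hx
        rw [SimpleGraph.Walk.support_cons, SimpleGraph.Walk.support_nil, List.mem_cons,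
          List.mem_singleton] at hx
        rw [SimpleGraph.Walk.support_cons, List.mem_cons]
        rcases hx with hx | hx
        · exact Or.inl hx
        · rw [hx]; exact Or.inr p.start_mem_support
      · intro x hx
        rw [SimpleGraph.Walk.support_cons, SimpleGraph.Walk.support_nil, List.mem_cons,
          List.mem_singleton] at hx
        rcases hx with hx | hx
        · rw [hx]; linarith only [hz, hD]
        · rw [hx]
          have h6 := hstep a b hab hz
          have h7 := dist_triangle (GaussianInt.toComplex b.1) (GaussianInt.toComplex a.1) x₀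
          rw [dist_comm (GaussianInt.toComplex b.1) (GaussianInt.toComplex a.1)] at h7
          linarith only [h6, h7, hz]

/-- Powers of the logarithm. -/
theorem scale {C : ℝ} (hC : 1 ≤ C) {b : ℝ} (hb0 : 0 < b) (hb : b < 1) {ε : ℝ} (hε : 0 < ε) :
    ∀ᶠ T : ℝ in atTop, 2 ≤ ⌈T ^ b⌉₊ ∧ 1 ≤ (2 * T) ^ ((1 - b) / (2 * C)) ∧
      C * ((2 * T) ^ ((1 - b) / (2 * C))) ^ C * (⌈T ^ b⌉₊ * Real.log ⌈T ^ b⌉₊) ≤ ε * T := by
  set δ : ℝ := (1 - b) / 4 with hδ
  have hδ0 : 0 < δ := by rw [hδ]; linarith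
  have h1 : ∀ᶠ T : ℝ in atTop, 1 < T ^ b :=
    (tendsto_rpow_atTop hb0).eventually (eventually_gt_atTop 1)
  have h2 : ∀ᶠ T : ℝ in atTop, 8 * C / ε ≤ T ^ δ :=
    (tendsto_rpow_atTop hδ0).eventually (eventually_ge_atTop _)
  have h3 : ∀ᶠ T : ℝ in atTop, Real.log T ≤ T ^ δ := by
    have h := (isLittleO_log_rpow_atTop hδ0).bound (show (0 : ℝ) < 1 by norm_num)
    filter_upwards [h, eventually_gt_atTop (1 : ℝ)] with T hT hT1
    rw [one_mul, Real.norm_of_nonneg (Real.log_nonneg hT1.le),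
      Real.norm_of_nonneg (by positivity)] at hT
    exact hT
  filter_upwards [h1, h2, h3, eventually_ge_atTop (2 : ℝ)] with T g1 g2 g3 hT2
  have hT0 : 0 < T := by linarith
  have hk1 : T ^ b ≤ ⌈T ^ b⌉₊ := Nat.le_ceil _
  have hk2 : (⌈T ^ b⌉₊ : ℝ) ≤ 2 * T ^ b := by
    have := Nat.ceil_lt_add_one (show 0 ≤ T ^ b by positivity)
    linarith
  have hkk : 2 ≤ ⌈T ^ b⌉₊ := by
    have : (1 : ℝ) < ⌈T ^ b⌉₊ := lt_of_lt_of_le g1 hk1
    exact_mod_cast this
  have hbT : T ^ b ≤ T := by
    calc T ^ b ≤ T ^ (1 : ℝ) := Real.rpow_le_rpow_of_exponent_le (by linarith) hb.le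
      _ = T := Real.rpow_one T
  have hlogk : Real.log ⌈T ^ b⌉₊ ≤ 2 * T ^ δ := by
    have h4 : (⌈T ^ b⌉₊ : ℝ) ≤ T ^ 2 := by nlinarith
    have h5 := Real.log_le_log (by linarith) h4
    rw [Real.log_pow] at h5
    push_cast at h5
    linarith
  have hlogk0 : 0 ≤ Real.log ⌈T ^ b⌉₊ := Real.log_nonneg (by linarith)
  refine ⟨hkk, Real.one_le_rpow (by linarith) (div_nonneg (by linarith) (by linarith)), ?_⟩
  have h6 : ((2 * T) ^ ((1 - b) / (2 * C))) ^ C ≤ 2 * T ^ (2 * δ) := by
    rw [← Real.rpow_mul (by positivity)]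
    have h7 : (1 - b) / (2 * C) * C = 2 * δ := by
      rw [hδ]; field_simp; ring
    rw [h7, Real.mul_rpow (by norm_num) hT0.le]
    apply mul_le_mul_of_nonneg_right _ (by positivity)
    calc (2 : ℝ) ^ (2 * δ) ≤ 2 ^ (1 : ℝ) :=
          Real.rpow_le_rpow_of_exponent_le (by norm_num) (by rw [hδ]; linarith)
      _ = 2 := Real.rpow_one 2
  have h8 : C * ((2 * T) ^ ((1 - b) / (2 * C))) ^ C * (⌈T ^ b⌉₊ * Real.log ⌈T ^ b⌉₊) ≤
      C * (2 * T ^ (2 * δ)) * ((2 * T ^ b) * (2 * T ^ δ)) := by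
    apply mul_le_mul
    · exact mul_le_mul_of_nonneg_left h6 (by linarith)
    · exact mul_le_mul hk2 hlogk hlogk0 (by positivity)
    · positivity
    · positivity
  refine h8.trans ?_
  have h9 : T = T ^ (2 * δ) * T ^ b * T ^ δ * T ^ δ := by
    rw [← Real.rpow_add hT0, ← Real.rpow_add hT0, ← Real.rpow_add hT0]
    have : 2 * δ + b + δ + δ = 1 := by rw [hδ]; ring
    rw [this, Real.rpow_one]
  have h10 : 8 * C ≤ ε * T ^ δ := by
    rw [div_le_iff₀ hε] at g2
    linarith
  calc C * (2 * T ^ (2 * δ)) * ((2 * T ^ b) * (2 * T ^ δ))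
      = (8 * C) * (T ^ (2 * δ) * T ^ b * T ^ δ) := by ring
    _ ≤ (ε * T ^ δ) * (T ^ (2 * δ) * T ^ b * T ^ δ) :=
        mul_le_mul_of_nonneg_right h10 (by positivity)
    _ = ε * (T ^ (2 * δ) * T ^ b * T ^ δ * T ^ δ) := by ring
    _ = ε * T := by rw [← h9]

theorem kd_le {C D : ℝ} (hC : 20 ≤ C) (hD : 1 ≤ D) {k : ℕ} (hk : 2 ≤ k) :
    5 * (k * D) * D ≤ C * D ^ C * (k * Real.log k) := by
  have hk2 : (2 : ℝ) ≤ k := by exact_mod_cast hk
  have hD0 : 0 < D := by linarith
  have hlogk : 0.69 ≤ Real.log k := by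
    have h1 := Real.log_le_log (by norm_num) hk2
    linarith [Real.log_two_gt_d9]
  have hDC : D ^ 2 ≤ D ^ C := by
    rw [← Real.rpow_natCast]
    exact Real.rpow_le_rpow_of_exponent_le hD (by push_cast; linarith)
  calc 5 * (k * D) * D = D ^ 2 * (5 * k) := by ring
    _ ≤ D ^ 2 * (20 * (k * Real.log k)) := by
        apply mul_le_mul_of_nonneg_left _ (by positivity)
        nlinarith
    _ = 20 * D ^ 2 * (k * Real.log k) := by ring
    _ ≤ C * D ^ C * (k * Real.log k) := by
        apply mul_le_mul_of_nonneg_right _ (by positivity)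
        exact mul_le_mul hC hDC (by positivity) (by linarith)

end Vale.Agent.P015.R3.H7
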