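import Vale.Agent.P015.R3.H7.GrowA
import Vale.Agent.P015.H807.Confine
import Vale.Agent.P015.H807.Defs

/-!
Growing steps: sets that are locally close to boundaries of convex sets.
-/

open Finset Filter Topology

namespace Vale.Agent.P015.R3.H7

open Vale.Agent.P015 Vale.Agent.P015.H807

/-- Everything that is needed at a point `z` with `|z| = R`. -/
theorem eventually_scale' {C : ℝ} (hC : 20 ≤ C) {b : ℝ} (hb0 : 0 < b) (hb : b < 1)
    {a : ℝ} (ha : 0 < a) (ha1 : a ≤ 1) :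
    ∀ᶠ R : ℝ in atTop, ∃ (k : ℕ) (D : ℝ), D = (2 * Real.log (2 * R + 16)) ^ ((1 - b) / (2 * C)) ∧
      2 ≤ k ∧ 1 ≤ D ∧ Real.exp (C * D ^ C * (k * Real.log k)) ≤ R ^ (a / 2) ∧
      wide b R ≤ Real.exp k ∧ R ^ (a / 2) < R ^ a - D ∧ R ^ a ≤ R ∧ 1 ≤ R := by
  have hT : Tendsto (fun R : ℝ => Real.log (2 * R + 16)) atTop atTop :=
    Real.tendsto_log_atTop.comp (tendsto_atTop_add_const_right _ _
      (tendsto_id.const_mul_atTop (by norm_num)))
  have hpow : ∀ᶠ R : ℝ in atTop, 3 ≤ R ^ (a / 2) :=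
    (tendsto_rpow_atTop (half_pos ha)).eventually (eventually_ge_atTop 3)
  filter_upwards [hT.eventually (scale (by linarith : (1 : ℝ) ≤ C) hb0 hb
    (show (0 : ℝ) < a / 4 by positivity)), eventually_ge_atTop (16 : ℝ), hpow] with R hR hR16 hp
  obtain ⟨h1, h2, h3⟩ := hR
  set D : ℝ := (2 * Real.log (2 * R + 16)) ^ ((1 - b) / (2 * C)) with hD
  set k : ℕ := ⌈(Real.log (2 * R + 16)) ^ b⌉₊ with hk
  have hR0 : 0 < R := by linarith
  have hlogR : 1 ≤ Real.log R := by
    have h4 := log_sixteen_le (show (0 : ℝ) ≤ R - 16 by linarith)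
    rw [sub_add_cancel] at h4
    linarith
  have h4 : Real.log (2 * R + 16) ≤ 2 * Real.log R := by
    have h5 : 2 * R + 16 ≤ R ^ 2 := by nlinarith
    have h6 := Real.log_le_log (by linarith) h5
    rw [Real.log_pow] at h6
    push_cast at h6
    exact h6
  have h5 : C * D ^ C * (k * Real.log k) ≤ a / 2 * Real.log R := by
    have h6 : a / 4 * Real.log (2 * R + 16) ≤ a / 4 * (2 * Real.log R) :=
      mul_le_mul_of_nonneg_left h4 (by positivity)
    linarith
  have hRa : R ^ (a / 2) = Real.exp (a / 2 * Real.log R) := by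
    rw [Real.rpow_def_of_pos hR0]; ring_nf
  refine ⟨k, D, rfl, h1, h2, ?_, ?_, ?_, ?_, by linarith⟩
  · rw [hRa]; exact Real.exp_le_exp.2 h5
  · apply Real.exp_le_exp.2
    have h6 : (Real.log (R + 16)) ^ b ≤ (Real.log (2 * R + 16)) ^ b :=
      Real.rpow_le_rpow (Real.log_nonneg (by linarith)) (Real.log_le_log (by linarith)
        (by linarith)) hb0.le
    exact h6.trans (Nat.le_ceil _)
  · have hk2 : (2 : ℝ) ≤ k := by exact_mod_cast h1
    have hDD : D ≤ 5 * (k * D) * D := by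
      have : 1 ≤ D * k := by nlinarith
      nlinarith
    have h6 : D ≤ a / 2 * Real.log R := hDD.trans ((kd_le hC h2 h1).trans h5)
    have h7 : a / 2 * Real.log R + 1 ≤ R ^ (a / 2) := by
      rw [hRa]; exact Real.add_one_le_exp _
    have h8 : R ^ a = R ^ (a / 2) * R ^ (a / 2) := by
      rw [← Real.rpow_add hR0]; ring_nf
    rw [h8]
    nlinarith
  · calc R ^ a ≤ R ^ (1 : ℝ) := Real.rpow_le_rpow_of_exponent_le (by linarith) ha1
      _ = R := Real.rpow_one R

/-- **Growing steps: locally thin sets.** -/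
theorem grow_thin (b : ℝ) (hb0 : 0 < b) (hb : b < 1) : ∃ c : ℝ, 0 < c ∧ ∀ a : ℝ, 0 < a →
    ∀ (S : Set {z : GaussianInt // Prime z}) (R₀ : ℝ),
    (∀ z ∈ S, R₀ ≤ ‖GaussianInt.toComplex z.1‖ → ∃ (M : ℕ) (K : Fin M → Set ℂ),
      (M : ℝ) ≤ wide b ‖GaussianInt.toComplex z.1‖ ∧ (∀ j, Convex ℝ (K j)) ∧
      ∀ v ∈ S, dist (GaussianInt.toComplex z.1) (GaussianInt.toComplex v.1) ≤
          ‖GaussianInt.toComplex z.1‖ ^ a →
        NearBoundaries K (wide b ‖GaussianInt.toComplex z.1‖) (GaussianInt.toComplex v.1)) →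
    ∀ K : ((growGraph c).induce S).ConnectedComponent, K.supp.Finite := by
  obtain ⟨C₁, hC₁, hconf⟩ := union_confinement
  set C : ℝ := C₁ + 20 with hCdef
  have hC : 20 ≤ C := by linarith
  have hc0 : 0 < (1 - b) / (2 * C) := div_pos (by linarith) (by linarith)
  have hc1 : (1 - b) / (2 * C) ≤ 1 := by
    rw [div_le_one (by linarith)]; linarith
  refine ⟨(1 - b) / (2 * C), hc0, ?_⟩
  intro a ha S R₀ hS
  have ha'0 : 0 < min a 1 := lt_min ha one_pos
  obtain ⟨R₂, hR₂⟩ := eventually_atTop.1 (eventually_scale' hC hb0 hb ha'0 (min_le_right a 1))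
  apply comps_finite' S (max R₀ R₂)
  intro z hz hzR
  set R : ℝ := ‖GaussianInt.toComplex z.1‖ with hRdef
  obtain ⟨k, D, hDdef, hk, hD, h1, h2, h3, h4, h5⟩ := hR₂ R ((le_max_right _ _).trans hzR)
  obtain ⟨M, K, hM, hK, hnear⟩ := hS z hz ((le_max_left _ _).trans hzR)
  have hD0 : 0 < D := by linarith
  refine ⟨R ^ (min a 1) - D, ?_⟩
  intro w p hp
  by_contra hcon
  push Not at hcon
  have hpos : 0 < R ^ (min a 1 / 2) := by positivity
  obtain ⟨v, q, hv, hq1, hq2⟩ := grow_exit (r := R ^ (min a 1) - D) hD0.le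
    (GaussianInt.toComplex z.1)
    (by
      intro x y hxy hx
      rw [hDdef]
      apply step_in_disc hc0.le hc1 hxy
      have h6 := norm_le_add_dist z.1 x.1
      rw [dist_comm] at h6
      linarith) p (by rw [dist_self]; linarith)
    (by rw [dist_comm]; exact hcon)
  have hkl : 0 ≤ k * Real.log k :=
    mul_nonneg (Nat.cast_nonneg k) (Real.log_nonneg (by exact_mod_cast (by omega : 1 ≤ k)))
  have h6 := hconf D hD k hk M K (hM.trans h2) hK z v q (by
    intro x hx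
    have h7 := hq2 x hx
    have h8 : R ^ (min a 1) ≤ R ^ a :=
      Real.rpow_le_rpow_of_exponent_le h5 (min_le_left a 1)
    obtain ⟨j, y, hy, hxy⟩ := hnear x (hp x (hq1 x hx)) (by rw [dist_comm]; linarith)
    exact ⟨j, y, hy, hxy.trans h2⟩)
  have h7 : Real.exp (C₁ * D ^ C₁ * (k * Real.log k)) ≤ R ^ (min a 1 / 2) :=
    (Real.exp_le_exp.2 (const_mono hC₁ (by linarith) hD hkl)).trans h1
  rw [dist_comm] at h6
  linarith

end Vale.Agent.P015.R3.H7
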