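import Vale.Agent.P015.R3.H7.GrowB
import Vale.Agent.P015.H807.Param

/-!
Growing steps near boundaries of convex sets and near polynomial curves; disjoint walks.
-/

open Finset Filter Topology Polynomial

namespace Vale.Agent.P015.R3.H7

open Vale.Agent.P015 Vale.Agent.P015.H807

theorem tendsto_wide {b : ℝ} (hb : 0 < b) : Tendsto (wide b) atTop atTop := by
  unfold wide
  apply Real.tendsto_exp_atTop.comp
  exact (tendsto_rpow_atTop hb).comp
    (Real.tendsto_log_atTop.comp (tendsto_atTop_add_const_right _ _ tendsto_id))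

/-- Comparison of the widths at nearby points. -/
theorem wide_facts {b b' : ℝ} (hb : 0 < b) (hb1 : b ≤ 1) (hbb' : b < b') (B : ℝ) :
    ∀ᶠ x : ℝ in atTop, B ≤ wide b' x ∧ (∀ y : ℝ, 0 ≤ y → y ≤ x + x ^ (1 / 2 : ℝ) →
      wide b y ≤ wide b' x) ∧ B ≤ x - x ^ (1 / 2 : ℝ) := by
  have h0 : Tendsto (fun x : ℝ => Real.log (x + 16)) atTop atTop :=
    Real.tendsto_log_atTop.comp (tendsto_atTop_add_const_right _ _ tendsto_id)
  filter_upwards [(tendsto_wide (hb.trans hbb')).eventually (eventually_ge_atTop B),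
    eventually_ge_atTop (4 : ℝ), eventually_ge_atTop (2 * |B|),
    h0.eventually ((tendsto_rpow_atTop (sub_pos.2 hbb')).eventually (eventually_ge_atTop 2))]
    with x h1 h2 h3 h7
  have h4 : x ^ (1 / 2 : ℝ) ≤ x / 2 := by
    rw [← Real.sqrt_eq_rpow, Real.sqrt_le_left (by linarith only [h2])]
    nlinarith only [h2]
  refine ⟨h1, ?_, ?_⟩
  · intro y hy hyx
    unfold wide
    apply Real.exp_le_exp.2
    set s := Real.log (x + 16) with hs
    have hs1 : 2.7 ≤ s := log_sixteen_le (by linarith)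
    have h5 : Real.log (y + 16) ≤ 2 * s := by
      have h6 : y + 16 ≤ (x + 16) ^ 2 := by nlinarith only [hyx, h4, h2]
      have h8 := Real.log_le_log (by linarith) h6
      rw [Real.log_pow] at h8
      push_cast at h8
      exact h8
    have h6 : (Real.log (y + 16)) ^ b ≤ (2 * s) ^ b :=
      Real.rpow_le_rpow (by linarith [log_sixteen_le hy]) h5 hb.le
    have h8 : (2 * s) ^ b ≤ 2 * s ^ b := by
      rw [Real.mul_rpow (by norm_num) (by linarith)]
      apply mul_le_mul_of_nonneg_right _ (Real.rpow_nonneg (by linarith) _)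
      calc (2 : ℝ) ^ b ≤ 2 ^ (1 : ℝ) := Real.rpow_le_rpow_of_exponent_le (by norm_num) hb1
        _ = 2 := Real.rpow_one 2
    have h9 : s ^ b' = s ^ b * s ^ (b' - b) := by
      rw [← Real.rpow_add (by linarith)]; ring_nf
    have h10 : 0 ≤ s ^ b := Real.rpow_nonneg (by linarith) _
    rw [h9]
    nlinarith
  · have h5 := le_abs_self B
    linarith only [h3, h4, h5]

/-- **Growing steps near a finite union of boundaries of convex sets.** -/
theorem grow_union (b : ℝ) (hb0 : 0 < b) (hb : b < 1) : ∃ c : ℝ, 0 < c ∧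
    ∀ (M : ℕ) (K : Fin M → Set ℂ), (∀ j, Convex ℝ (K j)) →
    ∀ L : ((growGraph c).induce {z | NearBoundaries K
      (wide b ‖GaussianInt.toComplex z.1‖) (GaussianInt.toComplex z.1)}).ConnectedComponent,
      L.supp.Finite := by
  obtain ⟨c, hc, h⟩ := grow_thin ((1 + b) / 2) (by linarith) (by linarith)
  refine ⟨c, hc, ?_⟩
  intro M K hK
  obtain ⟨R₀, hR₀⟩ := eventually_atTop.1 (wide_facts hb0 hb.le
    (show b < (1 + b) / 2 by linarith) (M : ℝ))
  apply h (1 / 2) (by norm_num) _ R₀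
  intro z _ hzR
  obtain ⟨g1, g2, -⟩ := hR₀ _ hzR
  refine ⟨M, K, g1, hK, ?_⟩
  intro v hv hzv
  obtain ⟨j, q, hq, hvq⟩ := hv
  refine ⟨j, q, hq, hvq.trans ?_⟩
  apply g2 _ (norm_nonneg _)
  have h2 := norm_le_add_dist z.1 v.1
  linarith only [h2, hzv]

/-- The width is eventually smaller than half the radius. -/
theorem wide_le_half {b : ℝ} (hb : b < 1) : ∀ᶠ x : ℝ in atTop, wide b x ≤ x / 2 := by
  have h0 : Tendsto (fun x : ℝ => Real.log (x + 16)) atTop atTop :=
    Real.tendsto_log_atTop.comp (tendsto_atTop_add_const_right _ _ tendsto_id)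
  filter_upwards [eventually_ge_atTop (16 : ℝ),
    h0.eventually ((tendsto_rpow_atTop (sub_pos.2 hb)).eventually (eventually_ge_atTop 4))]
    with x hx hx2
  have hx0 : 0 < x := by linarith only [hx]
  set s := Real.log (x + 16) with hs
  have hs1 : 2.7 ≤ s := log_sixteen_le (by linarith)
  have h1 : s ^ b * s ^ (1 - b) = s := by
    rw [← Real.rpow_add (by linarith)]
    ring_nf
    exact Real.rpow_one s
  have h2 : s ^ b ≤ s / 4 := by
    have h10 : 0 ≤ s ^ b := Real.rpow_nonneg (by linarith) _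
    nlinarith
  have h3 : s ≤ 2 * Real.log x := by
    have h6 : x + 16 ≤ x ^ 2 := by nlinarith only [hx]
    have h8 := Real.log_le_log (by linarith only [hx0]) h6
    rw [Real.log_pow] at h8
    push_cast at h8
    exact h8
  have h4 : wide b x ≤ Real.exp (1 / 2 * Real.log x) := by
    unfold wide
    exact Real.exp_le_exp.2 (by linarith only [h2, h3])
  have h5 : Real.exp (1 / 2 * Real.log x) = Real.sqrt x := by
    rw [Real.sqrt_eq_rpow, Real.rpow_def_of_pos hx0]
    ring_nf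
  rw [h5] at h4
  refine h4.trans ?_
  rw [Real.sqrt_le_left (by linarith only [hx])]
  nlinarith only [hx]

/-- **Growing steps near curves with convex ends**, in particular near polynomial curves. -/
theorem grow_curve (b : ℝ) (hb0 : 0 < b) (hb : b < 1) : ∃ c : ℝ, 0 < c ∧
    ∀ (Γ : ℝ → ℂ) (T : ℝ) (K₀ K₁ : Set ℂ), Continuous Γ → Convex ℝ K₀ → Convex ℝ K₁ →
    (∀ t, T ≤ t → Γ t ∈ frontier K₀) → (∀ t, t ≤ -T → Γ t ∈ frontier K₁) →
    ∀ L : ((growGraph c).induce {z | ∃ t : ℝ, dist (GaussianInt.toComplex z.1) (Γ t) ≤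
      wide b ‖GaussianInt.toComplex z.1‖}).ConnectedComponent, L.supp.Finite := by
  obtain ⟨c, hc, h⟩ := grow_thin ((1 + b) / 2) (by linarith) (by linarith)
  refine ⟨c, hc, ?_⟩
  intro Γ A K₀ K₁ hΓ hK₀ hK₁ hK₀' hK₁'
  obtain ⟨β, hβ⟩ : ∃ β : ℝ, ∀ x ∈ Set.Icc (-A) A, ‖Γ x‖ ≤ β :=
    (isCompact_Icc (a := -A) (b := A)).exists_bound_of_continuousOn hΓ.continuousOn
  obtain ⟨R₂, hR₂⟩ := eventually_atTop.1 ((wide_le_half hb).and
    (eventually_ge_atTop (2 * |β| + 1)))
  obtain ⟨R₀, hR₀⟩ := eventually_atTop.1 (wide_facts hb0 hb.le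
    (show b < (1 + b) / 2 by linarith) (max 2 R₂))
  apply h (1 / 2) (by norm_num) _ R₀
  intro z _ hzR
  obtain ⟨g1, g2, g3⟩ := hR₀ _ hzR
  refine ⟨2, fun j => if j = 0 then K₀ else K₁, ?_, ?_, ?_⟩
  · push_cast
    exact (le_max_left _ _).trans g1
  · intro j
    by_cases hj : j = 0
    · simp only [hj, if_true]; exact hK₀
    · simp only [hj, if_false]; exact hK₁
  · intro v hv hzv
    obtain ⟨x, hx⟩ := hv
    have h2 := norm_le_add_dist z.1 v.1
    have h3 := norm_le_add_dist v.1 z.1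
    rw [dist_comm] at h3
    have hvR : R₂ ≤ ‖GaussianInt.toComplex v.1‖ := by
      have := (le_max_right 2 R₂).trans g3
      linarith only [this, h3, hzv]
    obtain ⟨e1, e2⟩ := hR₂ _ hvR
    have hwidth : wide b ‖GaussianInt.toComplex v.1‖ ≤
        wide ((1 + b) / 2) ‖GaussianInt.toComplex z.1‖ :=
      g2 _ (norm_nonneg _) (by linarith only [h2, hzv])
    have hxA : x ∉ Set.Icc (-A) A := by
      intro hxA
      have h4 := hβ x hxA
      have h5 : ‖GaussianInt.toComplex v.1‖ ≤ ‖Γ x‖ +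
          dist (GaussianInt.toComplex v.1) (Γ x) := by
        have h6 := norm_add_le (Γ x) (GaussianInt.toComplex v.1 - Γ x)
        rw [← dist_eq_norm, add_sub_cancel] at h6
        exact h6
      have h7 := le_abs_self β
      linarith only [h4, h5, hx, e1, e2, h7]
    rw [Set.mem_Icc, not_and_or, not_le, not_le] at hxA
    rcases hxA with hxA | hxA
    · refine ⟨1, Γ x, ?_, hx.trans hwidth⟩
      simp only [Fin.isValue, one_ne_zero, if_false]
      exact hK₁' x hxA.le
    · refine ⟨0, Γ x, ?_, hx.trans hwidth⟩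
      simp only [Fin.isValue, if_true]
      exact hK₀' x hxA.le

theorem grow_poly (b : ℝ) (hb0 : 0 < b) (hb : b < 1) : ∃ c : ℝ, 0 < c ∧
    ∀ (P Q : ℝ[X]) (L : ((growGraph c).induce {z | ∃ t : ℝ,
      dist (GaussianInt.toComplex z.1) (⟨P.eval t, Q.eval t⟩ : ℂ) ≤
        wide b ‖GaussianInt.toComplex z.1‖}).ConnectedComponent), L.supp.Finite := by
  obtain ⟨c, hc, h⟩ := grow_curve b hb0 hb
  refine ⟨c, hc, ?_⟩
  intro P Q
  obtain ⟨Γ, T, K₀, K₁, hΓ, hK₀, hK₁, h0, h1, hΓ'⟩ := poly_curve_convex_ends P Q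
  have h2 := h Γ T K₀ K₁ hΓ hK₀ hK₁ h0 h1
  rw [← hΓ'] at h2
  exact h2

/-- **Disjoint walks.** -/
theorem disjoint_walks {D R e : ℝ} {z₀ : ℂ} {F : Finset {z : GaussianInt // Prime z}}
    (hF : (F.card : ℝ) ≤ e)
    (hcut : ∀ (z w : {z : GaussianInt // Prime z}) (p : (moatGraph D).Walk z w),
      dist (GaussianInt.toComplex z.1) z₀ < R → 2 * R < dist (GaussianInt.toComplex w.1) z₀ →
      ∃ v ∈ p.support, v ∈ F)
    (n : ℕ) (z w : Fin n → {z : GaussianInt // Prime z})
    (p : ∀ i, (moatGraph D).Walk (z i) (w i))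
    (hz : ∀ i, dist (GaussianInt.toComplex (z i).1) z₀ < R)
    (hw : ∀ i, 2 * R < dist (GaussianInt.toComplex (w i).1) z₀)
    (hdis : ∀ i j, ∀ v ∈ (p i).support, v ∈ (p j).support → i = j) : (n : ℝ) ≤ e := by
  classical
  have h1 : ∀ i, ∃ v ∈ (p i).support, v ∈ F := fun i => hcut _ _ (p i) (hz i) (hw i)
  choose f hf1 hf2 using h1
  have h2 : n ≤ F.card := by
    have h3 := Finset.card_le_card_of_injOn (s := (Finset.univ : Finset (Fin n))) (t := F) f
      (fun i _ => hf2 i) (fun i _ j _ hij => hdis i j (f i) (hf1 i) (by rw [hij]; exact hf1 j))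
    simpa using h3
  exact (by exact_mod_cast h2 : (n : ℝ) ≤ F.card).trans hF

end Vale.Agent.P015.R3.H7
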