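import Vale.Agent.P015.Bdl.B1

/-!
Local moats of `G_D` with constants uniform in `D`.
-/

open Finset Filter Topology

namespace Vale.Agent.P015.R3.H7

open Vale.Agent.P015

/-- The shifted number of steps: it absorbs the factor `400 D`. -/
theorem shift_arith {C D : ℝ} (hC : 0 < C) (hD : 1 ≤ D) {k : ℕ} (hk : 2 ≤ k) :
    ∃ m : ℕ, 2 ≤ m ∧ k ≤ m ∧ 400 * D * Real.exp (-(m : ℝ)) ≤ Real.exp (-(k : ℝ)) ∧
      C * D ^ C * (m * Real.log m) ≤
        (25 * C + 10) * D ^ (25 * C + 10) * (k * Real.log k) ∧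
      (m : ℝ) ≤ 5 * (k * D) := by
  have hD0 : 0 < D := by linarith
  have hk2 : (2 : ℝ) ≤ k := by exact_mod_cast hk
  have hlogD0 : 0 ≤ Real.log D := Real.log_nonneg hD
  have hlogD : Real.log D ≤ D - 1 := Real.log_le_sub_one_of_pos hD0
  have hlog5 : Real.log 5 ≤ 1.65 := by
    rw [Real.log_le_iff_le_exp (by norm_num)]
    have h3 : (2.7182818283 : ℝ) < Real.exp 1 := Real.exp_one_gt_d9
    have h4 : Real.exp 1.65 = Real.exp 1 * Real.exp 0.65 := by rw [← Real.exp_add]; norm_num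
    have h5 : (1 : ℝ) + 0.65 + 0.65 ^ 2 / 2 ≤ Real.exp 0.65 :=
      Real.quadratic_le_exp_of_nonneg (by norm_num)
    have h6 : (2.718 : ℝ) * (1 + 0.65 + 0.65 ^ 2 / 2) ≤ Real.exp 1 * Real.exp 0.65 :=
      mul_le_mul (by linarith) h5 (by norm_num) (Real.exp_pos _).le
    rw [h4]
    refine le_trans (by norm_num) h6
  have h400 : Real.log 400 ≤ 6.1 := by
    have h1 : Real.log 400 = 4 * Real.log 2 + 2 * Real.log 5 := by
      rw [show (400 : ℝ) = 2 ^ 4 * 5 ^ 2 by norm_num, Real.log_mul (by norm_num) (by norm_num),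
        Real.log_pow, Real.log_pow]
      push_cast; ring
    have h3 := Real.log_two_lt_d9
    rw [h1]; linarith
  set m : ℕ := k + ⌈Real.log (400 * D)⌉₊ with hm
  have hL : Real.log (400 * D) = Real.log 400 + Real.log D :=
    Real.log_mul (by norm_num) hD0.ne'
  have hL0 : 0 ≤ Real.log (400 * D) := Real.log_nonneg (by linarith)
  have hm1 : (k : ℝ) + Real.log (400 * D) ≤ m := by
    rw [hm]; push_cast; linarith [Nat.le_ceil (Real.log (400 * D))]
  have hm2 : (m : ℝ) ≤ k + 6.1 + D := by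
    have := Nat.ceil_lt_add_one hL0
    rw [hm]; push_cast
    linarith
  have hm3 : (m : ℝ) ≤ 5 * (k * D) := by nlinarith
  have hm0 : (0 : ℝ) < m := by linarith
  have hlogk : 0.69 ≤ Real.log k := by
    have h1 := Real.log_le_log (by norm_num) hk2
    linarith [Real.log_two_gt_d9]
  refine ⟨m, by omega, by omega, ?_, ?_, hm3⟩
  · have h1 : 400 * D = Real.exp (Real.log (400 * D)) := (Real.exp_log (by linarith)).symm
    rw [h1, ← Real.exp_add]
    apply Real.exp_le_exp.2
    linarith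
  · have hlogm : Real.log m ≤ 5 * (D * Real.log k) := by
      have h1 : Real.log m ≤ Real.log (5 * (k * D)) := Real.log_le_log hm0 hm3
      have h2 : Real.log (5 * (k * D)) = Real.log 5 + (Real.log k + Real.log D) := by
        rw [Real.log_mul (by norm_num) (by positivity), Real.log_mul (by positivity) hD0.ne']
      have h3 : 1.65 ≤ 2.4 * (D * Real.log k) := by nlinarith
      have h4 : Real.log D ≤ 1.6 * (D * Real.log k) := by nlinarith
      have h5 : Real.log k ≤ D * Real.log k := by nlinarith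
      rw [h2] at h1
      linarith
    have hlogm0 : 0 ≤ Real.log m := Real.log_nonneg (by linarith)
    have hprod : m * Real.log m ≤ 25 * D ^ 2 * (k * Real.log k) := by
      calc m * Real.log m ≤ (5 * (k * D)) * (5 * (D * Real.log k)) :=
            mul_le_mul hm3 hlogm hlogm0 (by positivity)
        _ = 25 * D ^ 2 * (k * Real.log k) := by ring
    have hpow : D ^ C * D ^ 2 ≤ D ^ (25 * C + 10) := by
      rw [← Real.rpow_natCast, ← Real.rpow_add hD0]
      apply Real.rpow_le_rpow_of_exponent_le hD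
      push_cast
      linarith
    have hkl : 0 ≤ k * Real.log k := by positivity
    calc C * D ^ C * (m * Real.log m) ≤ C * D ^ C * (25 * D ^ 2 * (k * Real.log k)) :=
          mul_le_mul_of_nonneg_left hprod (by positivity)
      _ = 25 * C * (D ^ C * D ^ 2) * (k * Real.log k) := by ring
      _ ≤ (25 * C + 10) * D ^ (25 * C + 10) * (k * Real.log k) := by
          apply mul_le_mul_of_nonneg_right _ hkl
          apply mul_le_mul (by linarith) hpow (by positivity) (by positivity)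

/-- Few starts of long paths, with the factor `400 D` absorbed. -/
theorem start_count : ∃ C : ℝ, 1 ≤ C ∧ ∀ (D : ℝ), 1 ≤ D → ∀ k : ℕ, 2 ≤ k →
    ∃ m : ℕ, 2 ≤ m ∧ k ≤ m ∧ (m : ℝ) ≤ 5 * (k * D) ∧ ∀ R : ℝ, 1 ≤ R →
    Real.exp (C * D ^ C * (k * Real.log k)) ≤ R →
    ∀ (z₀ : ℂ) (X : Finset {z : GaussianInt // Prime z}),
    (∀ z ∈ X, dist (GaussianInt.toComplex z) z₀ ≤ R ∧ StartsPath D m z) →
    (X.card : ℝ) * (16 * D) ≤ R ^ 2 * Real.exp (-(k : ℝ)) := by
  obtain ⟨C, hC, h⟩ := disc_count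
  refine ⟨25 * C + 10, by linarith, ?_⟩
  intro D hD k hk
  obtain ⟨m, hm, hkm, h1, h2, h3⟩ := shift_arith hC hD hk
  refine ⟨m, hm, hkm, h3, ?_⟩
  intro R hR hexp z₀ X hX
  have h4 := h D hD m hm R hR ((Real.exp_le_exp.2 h2).trans hexp) z₀ X hX
  calc (X.card : ℝ) * (16 * D) ≤ (25 * R ^ 2 * Real.exp (-(m : ℝ))) * (16 * D) :=
        mul_le_mul_of_nonneg_right h4 (by linarith)
    _ = R ^ 2 * (400 * D * Real.exp (-(m : ℝ))) := by ring
    _ ≤ R ^ 2 * Real.exp (-(k : ℝ)) := mul_le_mul_of_nonneg_left h1 (by positivity)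

end Vale.Agent.P015.R3.H7
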