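import Vale.Agent.PNT.Main

/-! # Mertens' theorem modulo four, lower bound with the right constant (row M) -/

namespace Vale.Agent.P015.R3.H7

open Filter Topology Finset

namespace M43

/-- primes one mod four up to `x` -/
noncomputable def PS (x : ℝ) : Finset ℕ :=
  Finset.filter (fun p : ℕ => p.Prime ∧ (p : ZMod 4) = 1) (Finset.Icc 1 ⌊x⌋₊)

/-- the sum of the reciprocals -/
noncomputable def S (x : ℝ) : ℝ := ∑ p ∈ PS x, (1 : ℝ) / p

theorem PS_mono {x z : ℝ} (h : x ≤ z) : PS x ⊆ PS z :=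
  Finset.filter_subset_filter _ (Finset.Icc_subset_Icc_right (Nat.floor_mono h))

theorem step {x z : ℝ} (h1 : 1 < x) (hxz : x ≤ z) :
    (Vale.Agent.PNT.thetaAP (1 : ZMod 4) z - Vale.Agent.PNT.thetaAP (1 : ZMod 4) x) /
      (z * Real.log z) ≤ S z - S x := by
  have hz : 1 < z := lt_of_lt_of_le h1 hxz
  have hlz : 0 < Real.log z := Real.log_pos hz
  have e1 := Finset.sum_sdiff (f := fun p : ℕ => Real.log p) (PS_mono hxz)
  have e2 := Finset.sum_sdiff (f := fun p : ℕ => (1 : ℝ) / p) (PS_mono hxz)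
  have e3 : Vale.Agent.PNT.thetaAP (1 : ZMod 4) z = ∑ p ∈ PS z, Real.log p := rfl
  have e4 : Vale.Agent.PNT.thetaAP (1 : ZMod 4) x = ∑ p ∈ PS x, Real.log p := rfl
  rw [e3, e4, S, S, ← e1, ← e2, add_sub_cancel_right, add_sub_cancel_right, Finset.sum_div]
  refine Finset.sum_le_sum fun p hp => ?_
  have hp1 := (Finset.mem_sdiff.1 hp).1
  rw [PS, Finset.mem_filter, Finset.mem_Icc] at hp1
  have hp0 : (0 : ℝ) < p := by exact_mod_cast hp1.2.1.pos
  have hp2 : (1 : ℝ) ≤ p := by exact_mod_cast hp1.2.1.one_lt.le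
  have hpz : (p : ℝ) ≤ z := (Nat.le_floor_iff (by linarith)).1 hp1.1.2
  have hlp : 0 ≤ Real.log p := Real.log_nonneg hp2
  rw [div_le_div_iff₀ (by positivity) hp0, one_mul, mul_comm]
  exact mul_le_mul hpz (Real.log_le_log hp0 hpz) hlp (by linarith)

theorem step2 (ε : ℝ) (hε : 0 < ε) : ∃ ρ X : ℝ, 1 < ρ ∧ ρ ≤ 2 ∧ 2 ≤ X ∧ ∀ x, X ≤ x →
    (Real.log (Real.log (ρ * (ρ * x))) - Real.log (Real.log (ρ * x))) ≤
      (2 + ε) * (S (ρ * x) - S x) := by
  obtain ⟨ρ, hρ1, hρ2, hρ3⟩ : ∃ ρ : ℝ, 1 < ρ ∧ ρ ≤ 2 ∧ 2 * ρ < 2 + ε := by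
    refine ⟨1 + min 1 (ε / 4), ?_, ?_, ?_⟩
    · have : 0 < min 1 (ε / 4) := lt_min one_pos (by positivity)
      linarith
    · have := min_le_left 1 (ε / 4)
      linarith
    · have := min_le_right 1 (ε / 4)
      linarith
  set η : ℝ := (ρ - 1) * (1 / 2 - ρ / (2 + ε)) / (ρ + 1) with hη
  have hη0 : 0 < η := by
    have h1 : ρ / (2 + ε) < 1 / 2 := by
      rw [div_lt_iff₀ (by linarith)]
      linarith
    have : 0 < (ρ - 1) * (1 / 2 - ρ / (2 + ε)) := mul_pos (by linarith) (by linarith)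
    positivity
  have hηe : η * (ρ + 1) = (ρ - 1) * (1 / 2 - ρ / (2 + ε)) := by
    rw [hη]
    field_simp
  have h := Vale.Agent.PNT.thetaAP_div_tendsto (q := 4) (a := (1 : ZMod 4)) isUnit_one
  have htot : ((Nat.totient 4 : ℝ))⁻¹ = 1 / 2 := by
    have : Nat.totient 4 = 2 := by decide
    rw [this]; norm_num
  rw [htot] at h
  have h1 := h.eventually (lt_mem_nhds (show (1 / 2 : ℝ) - η < 1 / 2 by linarith))
  have h2 := h.eventually (gt_mem_nhds (show (1 / 2 : ℝ) < 1 / 2 + η by linarith))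
  obtain ⟨X, hX⟩ := Filter.eventually_atTop.1 (h1.and h2)
  refine ⟨ρ, max X 2, hρ1, hρ2, le_max_right _ _, fun x hx => ?_⟩
  have hx2 : 2 ≤ x := (le_max_right _ _).trans hx
  have hxX : X ≤ x := (le_max_left _ _).trans hx
  have hx0 : 0 < x := by linarith
  have hρx : x ≤ ρ * x := by nlinarith
  have hρx0 : 0 < ρ * x := by linarith
  have a1 := (hX (ρ * x) (hxX.trans hρx)).1
  have a2 := (hX x hxX).2
  rw [lt_div_iff₀ hρx0] at a1
  rw [div_lt_iff₀ hx0] at a2
  have hst := step (x := x) (z := ρ * x) (by linarith) hρx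
  have hb : 0 < Real.log (ρ * x) := Real.log_pos (by linarith)
  have hr : 0 < Real.log ρ := Real.log_pos hρ1
  -- the difference of theta
  have h3 : (ρ - 1) * ρ / (2 + ε) * x ≤ Vale.Agent.PNT.thetaAP (1 : ZMod 4) (ρ * x) -
      Vale.Agent.PNT.thetaAP (1 : ZMod 4) x := by
    have h4 : (ρ - 1) * ρ / (2 + ε) = (ρ - 1) / 2 - η * (ρ + 1) := by
      rw [hηe]
      ring
    rw [h4]
    nlinarith
  have h5 : (ρ - 1) / Real.log (ρ * x) ≤ (2 + ε) * (S (ρ * x) - S x) := by
    have h6 : (ρ - 1) / Real.log (ρ * x) = (2 + ε) * (((ρ - 1) * ρ / (2 + ε) * x) /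
        (ρ * x * Real.log (ρ * x))) := by
      field_simp
    rw [h6]
    refine mul_le_mul_of_nonneg_left (le_trans ?_ hst) (by linarith)
    exact div_le_div_of_nonneg_right h3 (by positivity)
  refine le_trans ?_ h5
  have h7 : Real.log (ρ * (ρ * x)) = Real.log (ρ * x) + Real.log ρ := by
    rw [Real.log_mul (by linarith) hρx0.ne', add_comm]
  rw [h7, ← Real.log_div (by positivity) hb.ne']
  refine (Real.log_le_sub_one_of_pos (by positivity)).trans ?_
  have h8 : (Real.log (ρ * x) + Real.log ρ) / Real.log (ρ * x) - 1 =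
      Real.log ρ / Real.log (ρ * x) := by
    field_simp
    ring
  rw [h8]
  exact div_le_div_of_nonneg_right (Real.log_le_sub_one_of_pos (by linarith)) hb.le

theorem iter {ρ X c : ℝ} (hρ : 1 < ρ) (hX2 : 2 ≤ X) (h : ∀ x, X ≤ x →
    (Real.log (Real.log (ρ * (ρ * x))) - Real.log (Real.log (ρ * x))) ≤
      c * (S (ρ * x) - S x)) (x : ℝ) (hx : X ≤ x) (J : ℕ) :
    Real.log (Real.log (ρ * (ρ ^ J * x))) - Real.log (Real.log (ρ * x)) ≤
      c * (S (ρ ^ J * x) - S x) := by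
  induction J with
  | zero => simp
  | succ J ih =>
    have h1 : X ≤ ρ ^ J * x := by
      have : 1 ≤ ρ ^ J := one_le_pow₀ hρ.le
      nlinarith
    have h2 := h _ h1
    have e : ρ ^ (J + 1) * x = ρ * (ρ ^ J * x) := by rw [pow_succ]; ring
    rw [e]
    linarith

end M43

open M43

theorem mertens_half (ε : ℝ) (hε : 0 < ε) : ∃ A : ℝ, 0 < A ∧ ∀ lam : ℝ, 0 ≤ lam →
    ∃ K : ℕ, 1 ≤ K ∧ (K : ℝ) ≤ A * Real.exp ((2 + ε) * lam) ∧ ∀ y : ℕ, 2 ≤ y →
      lam ≤ ∑ p ∈ (Finset.Ioc y (y ^ K)).filter (fun p => p.Prime ∧ p % 4 = 1), (1 : ℝ) / p := by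
  obtain ⟨ρ, X, hρ1, hρ2, hX2, hstep⟩ := step2 ε hε
  obtain ⟨N, hN⟩ := exists_nat_ge X
  have hN2 : 2 ≤ N := by
    have : (2 : ℝ) ≤ N := hX2.trans hN
    exact_mod_cast this
  have hN0 : (0 : ℝ) < N := by
    have : 0 < N := by omega
    exact_mod_cast this
  -- sums over intervals of naturals
  have hS : ∀ a b : ℕ, a ≤ b → S b - S a =
      ∑ p ∈ (Finset.Ioc a b).filter (fun p => p.Prime ∧ p % 4 = 1), (1 : ℝ) / p := by
    intro a b hab
    have e2 := Finset.sum_sdiff (f := fun p : ℕ => (1 : ℝ) / p)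
      (PS_mono (Nat.cast_le (α := ℝ).2 hab))
    rw [S, S, ← e2, add_sub_cancel_right]
    refine Finset.sum_congr ?_ fun _ _ => rfl
    ext p
    have key : ((p : ZMod 4) = 1) ↔ p % 4 = 1 := by
      have h := ZMod.natCast_eq_natCast_iff' p 1 4
      simpa only [Nat.cast_one, Nat.one_mod] using h
    simp only [PS, Nat.floor_natCast, Finset.mem_sdiff, Finset.mem_filter, Finset.mem_Icc,
      Finset.mem_Ioc, key]
    constructor
    · rintro ⟨⟨⟨h1, h2⟩, h3⟩, h4⟩
      refine ⟨⟨?_, h2⟩, h3⟩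
      by_contra h5
      exact h4 ⟨⟨h1, by omega⟩, h3⟩
    · rintro ⟨⟨h1, h2⟩, h3⟩
      exact ⟨⟨⟨by omega, h2⟩, h3⟩, fun h => by omega⟩
  refine ⟨N * 4, by positivity, fun lam hlam => ?_⟩
  set E : ℝ := Real.exp ((2 + ε) * lam) with hE
  have hE1 : 1 ≤ E := Real.one_le_exp (by positivity)
  set K : ℕ := ⌈2 * E⌉₊ + 1 with hK
  have hK1 : 2 * E ≤ K := by
    rw [hK]
    push_cast
    have := Nat.le_ceil (2 * E)
    linarith
  have hK2 : (K : ℝ) ≤ 4 * E := by
    rw [hK]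
    push_cast
    have := (Nat.ceil_lt_add_one (a := 2 * E) (by positivity)).le
    linarith
  have hK0 : 1 ≤ K := by omega
  -- the main case
  have main : ∀ n : ℕ, N ≤ n → lam ≤
      ∑ p ∈ (Finset.Ioc n (n ^ K)).filter (fun p => p.Prime ∧ p % 4 = 1), (1 : ℝ) / p := by
    intro n hn
    have hnX : X ≤ n := hN.trans (by exact_mod_cast hn)
    have hn2 : (2 : ℝ) ≤ n := hX2.trans hnX
    have hn0 : (0 : ℝ) < n := by linarith
    rw [← hS n (n ^ K) (Nat.le_self_pow (by omega) n)]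
    obtain ⟨J, hJ1, hJ2⟩ := exists_nat_pow_near (x := (n : ℝ) ^ (K - 1)) (y := ρ)
      (one_le_pow₀ (by linarith)) hρ1
    have hnK : (n : ℝ) ^ (K - 1) * n = ((n ^ K : ℕ) : ℝ) := by
      rw [← pow_succ, Nat.sub_add_cancel hK0]
      push_cast
      rfl
    have h1 : ρ ^ J * n ≤ ((n ^ K : ℕ) : ℝ) := by
      rw [← hnK]
      exact mul_le_mul_of_nonneg_right hJ1 hn0.le
    have h2 : ((n ^ K : ℕ) : ℝ) ≤ ρ * (ρ ^ J * n) := by
      rw [← hnK, ← mul_assoc, ← pow_succ']
      exact mul_le_mul_of_nonneg_right hJ2.le hn0.le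
    have h3 := iter hρ1 hX2 hstep n hnX J
    have hln : 0 < Real.log n := Real.log_pos (by linarith)
    have h4 : Real.log (K * Real.log n) ≤ Real.log (Real.log (ρ * (ρ ^ J * n))) := by
      refine Real.log_le_log (by positivity) ?_
      have : (K : ℝ) * Real.log n = Real.log ((n ^ K : ℕ) : ℝ) := by
        push_cast
        rw [Real.log_pow]
      rw [this]
      exact Real.log_le_log (by rw [← hnK]; exact mul_pos (pow_pos hn0 _) hn0) h2
    have h5 : Real.log (Real.log (ρ * n)) ≤ Real.log (2 * Real.log n) := by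
      refine Real.log_le_log (Real.log_pos (by nlinarith)) ?_
      rw [Real.log_mul (by linarith) hn0.ne', two_mul]
      have := Real.log_le_log (by linarith) (hρ2.trans hn2)
      linarith
    have hKr : (0 : ℝ) < K := by exact_mod_cast hK0
    have h6 : Real.log (K * Real.log n) - Real.log (2 * Real.log n) = Real.log (K / 2) := by
      rw [← Real.log_div (by positivity) (by positivity)]
      congr 1
      field_simp
    have h7 : (2 + ε) * lam ≤ Real.log (K / 2) := by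
      rw [Real.le_log_iff_exp_le (by positivity)]
      linarith
    have h8 : S (ρ ^ J * n) ≤ S ((n ^ K : ℕ) : ℝ) := by
      refine Finset.sum_le_sum_of_subset_of_nonneg (PS_mono h1) fun i _ _ => by positivity
    have h9 : (2 + ε) * lam ≤ (2 + ε) * (S ((n ^ K : ℕ) : ℝ) - S n) := by
      have : (2 + ε) * (S (ρ ^ J * n) - S n) ≤ (2 + ε) * (S ((n ^ K : ℕ) : ℝ) - S n) :=
        mul_le_mul_of_nonneg_left (by linarith) (by linarith)
      linarith
    exact le_of_mul_le_mul_left h9 (by linarith)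
  refine ⟨N * K, Nat.mul_pos (by omega) hK0, ?_, fun y hy => ?_⟩
  · push_cast
    nlinarith
  · by_cases hyN : N ≤ y
    · refine (main y hyN).trans ?_
      refine Finset.sum_le_sum_of_subset_of_nonneg ?_ fun i _ _ => by positivity
      refine Finset.filter_subset_filter _ (Finset.Ioc_subset_Ioc_right ?_)
      exact Nat.pow_le_pow_right (by omega) (Nat.le_mul_of_pos_left _ (by omega))
    · refine (main N le_rfl).trans ?_
      refine Finset.sum_le_sum_of_subset_of_nonneg ?_ fun i _ _ => by positivity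
      refine Finset.filter_subset_filter _ (Finset.Ioc_subset_Ioc (by omega) ?_)
      rw [pow_mul]
      refine Nat.pow_le_pow_left ?_ _
      calc N ≤ 2 ^ N := Nat.lt_two_pow_self.le
        _ ≤ y ^ N := Nat.pow_le_pow_left hy _

end Vale.Agent.P015.R3.H7

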