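import Vale.Agent.P015.Bdl.B1

set_option autoImplicit false

namespace Vale.Agent.P015.R3.H7

open Finset Filter Topology

/-- Lower bound for the number of primes one modulo four. -/
theorem exists_lower (c : ℝ) (hc : c < 1 / 2) : ∃ N : ℕ, 4 ≤ N ∧ ∀ n : ℕ, N ≤ n →
    c * n ≤ ((primesMod 0 n).card : ℝ) * Real.log n := by
  have hunit : IsUnit (1 : ZMod 4) := isUnit_one
  have h := Vale.Agent.PNT.piAP_mul_log_div_tendsto (q := 4) (a := (1 : ZMod 4)) hunit
  have htot : (Nat.totient 4 : ℝ) = 2 := by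
    have : Nat.totient 4 = 2 := by decide
    rw [this]; norm_num
  rw [htot] at h
  have hn : Tendsto (fun n : ℕ => (n : ℝ)) atTop atTop := tendsto_natCast_atTop_atTop
  have hlo := (h.comp hn).eventually (lt_mem_nhds (show c < (2:ℝ)⁻¹ by norm_num; linarith))
  obtain ⟨N, hN⟩ := Filter.eventually_atTop.mp hlo
  refine ⟨max N 4, le_max_right _ _, fun n hn' => ?_⟩
  have h1 := hN n ((le_max_left _ _).trans hn')
  have hn4 : 4 ≤ n := (le_max_right _ _).trans hn'
  have hn0 : (0 : ℝ) < n := by
    have : 0 < n := by omega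
    exact_mod_cast this
  simp only [Function.comp] at h1
  rw [piAP_nat, lt_div_iff₀ hn0] at h1
  exact h1.le

theorem abel {c : ℝ} (hc0 : 0 ≤ c) {N : ℕ} (hN4 : 4 ≤ N) (hN : ∀ n : ℕ, N ≤ n →
    c * n ≤ ((primesMod 0 n).card : ℝ) * Real.log n) (a : ℕ) (ha : N ≤ a) (j : ℕ) :
    ((primesMod 0 (a + j)).card : ℝ) / ((a + j : ℕ) : ℝ) - ((primesMod 0 a).card : ℝ) / a +
      c * (Real.log (Real.log ((a + j : ℕ) + 1)) - Real.log (Real.log (a + 1))) ≤
      ∑ p ∈ primesMod a (a + j), (1 : ℝ) / p := by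
  induction j with
  | zero =>
    have h0 : (0 : ℝ) ≤ ∑ p ∈ primesMod a (a + 0), (1 : ℝ) / p :=
      Finset.sum_nonneg fun p _ => by positivity
    simpa using h0
  | succ j ih =>
    have hb : N ≤ a + j := by omega
    set b : ℕ := a + j with hbdef
    have e1 : a + (j + 1) = b + 1 := by omega
    rw [e1]
    have hb4 : 4 ≤ b := by omega
    have hbR : (4 : ℝ) ≤ b := by exact_mod_cast hb4
    have hb0 : (0 : ℝ) < b := by linarith
    have hcard : ((primesMod 0 (b + 1)).card : ℝ) =
        (primesMod 0 b).card + (primesMod b (b + 1)).card := by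
      have := sum_primesMod_add (a := 0) (b := b) (c := b + 1) (by omega) (by omega)
        (fun _ => (1 : ℝ))
      simpa only [sum_const, nsmul_eq_mul, mul_one] using this
    have hlast : ∑ p ∈ primesMod b (b + 1), (1 : ℝ) / p =
        ((primesMod b (b + 1)).card : ℝ) / ((b : ℝ) + 1) := by
      rw [div_eq_mul_one_div, ← nsmul_eq_mul, ← Finset.sum_const]
      refine Finset.sum_congr rfl fun p hp => ?_
      rw [mem_primesMod] at hp
      have : p = b + 1 := by omega
      rw [this]; push_cast; rfl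
    rw [sum_primesMod_add (a := a) (b := b) (c := b + 1) (by omega) (by omega)
      (fun p : ℕ => (1 : ℝ) / p), hlast, hcard]
    have hlogb : 1 < Real.log b := by
      rw [Real.lt_log_iff_exp_lt hb0]
      have := Real.exp_one_lt_d9
      linarith
    have hlogb1 : Real.log b ≤ Real.log ((b : ℝ) + 1) := Real.log_le_log hb0 (by linarith)
    have hloglog : Real.log (Real.log ((b : ℝ) + 1 + 1)) - Real.log (Real.log ((b : ℝ) + 1)) ≤
        1 / (((b : ℝ) + 1) * Real.log b) := by
      have hl1 : 0 < Real.log ((b : ℝ) + 1) := by linarith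
      have hl2 : 0 < Real.log ((b : ℝ) + 1 + 1) := Real.log_pos (by linarith)
      have h3 : Real.log ((b : ℝ) + 1 + 1) - Real.log ((b : ℝ) + 1) ≤ 1 / ((b : ℝ) + 1) := by
        rw [← Real.log_div (by positivity) (by positivity)]
        have h4 := Real.log_le_sub_one_of_pos
          (show 0 < ((b : ℝ) + 1 + 1) / ((b : ℝ) + 1) by positivity)
        have h5 : ((b : ℝ) + 1 + 1) / ((b : ℝ) + 1) - 1 = 1 / ((b : ℝ) + 1) := by
          field_simp
          ring
        linarith
      rw [← Real.log_div hl2.ne' hl1.ne']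
      have h6 := Real.log_le_sub_one_of_pos
        (show 0 < Real.log ((b : ℝ) + 1 + 1) / Real.log ((b : ℝ) + 1) by positivity)
      have h7 : Real.log ((b : ℝ) + 1 + 1) / Real.log ((b : ℝ) + 1) - 1 =
          (Real.log ((b : ℝ) + 1 + 1) - Real.log ((b : ℝ) + 1)) / Real.log ((b : ℝ) + 1) := by
        field_simp
      calc Real.log (Real.log ((b : ℝ) + 1 + 1) / Real.log ((b : ℝ) + 1))
          ≤ (Real.log ((b : ℝ) + 1 + 1) - Real.log ((b : ℝ) + 1)) / Real.log ((b : ℝ) + 1) := by
            linarith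
        _ ≤ (1 / ((b : ℝ) + 1)) / Real.log ((b : ℝ) + 1) :=
            div_le_div_of_nonneg_right h3 hl1.le
        _ ≤ (1 / ((b : ℝ) + 1)) / Real.log b :=
            div_le_div_of_nonneg_left (by positivity) (by linarith) hlogb1
        _ = 1 / (((b : ℝ) + 1) * Real.log b) := by rw [div_div]
    have hP := hN b hb
    have hP2 : c * (1 / (((b : ℝ) + 1) * Real.log b)) ≤
        ((primesMod 0 b).card : ℝ) * (1 / b - 1 / ((b : ℝ) + 1)) := by
      have h8 : (1 : ℝ) / b - 1 / ((b : ℝ) + 1) = 1 / (b * ((b : ℝ) + 1)) := by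
        field_simp
        ring
      rw [h8, mul_one_div, mul_one_div, div_le_div_iff₀ (by positivity) (by positivity)]
      have h9 : 0 < (b : ℝ) + 1 := by linarith
      nlinarith [mul_le_mul_of_nonneg_right hP h9.le]
    have hstep : c * (Real.log (Real.log ((b : ℝ) + 1 + 1)) -
        Real.log (Real.log ((b : ℝ) + 1))) ≤
        ((primesMod 0 b).card : ℝ) * (1 / b - 1 / ((b : ℝ) + 1)) :=
      (mul_le_mul_of_nonneg_left hloglog hc0).trans hP2
    have hA : ((primesMod 0 b).card : ℝ) / b =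
      ((primesMod 0 b).card : ℝ) * (1 / b) := by rw [mul_one_div]
    have hB : (((primesMod 0 b).card : ℝ) + (primesMod b (b + 1)).card) / ((b : ℝ) + 1) =
      ((primesMod 0 b).card : ℝ) * (1 / ((b : ℝ) + 1)) +
        ((primesMod b (b + 1)).card : ℝ) / ((b : ℝ) + 1) := by
      rw [add_div, mul_one_div]
    push_cast
    rw [hB]
    rw [hA] at ih
    nlinarith [ih, hstep]

/-- Row M. -/
theorem mertens_half (ε : ℝ) (hε : 0 < ε) : ∃ A : ℝ, 0 < A ∧ ∀ lam : ℝ, 0 ≤ lam →
    ∃ K : ℕ, 1 ≤ K ∧ (K : ℝ) ≤ A * Real.exp ((2 + ε) * lam) ∧ ∀ y : ℕ, 2 ≤ y →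
      lam ≤ ∑ p ∈ (Finset.Ioc y (y ^ K)).filter (fun p => p.Prime ∧ p % 4 = 1), (1 : ℝ) / p := by
  obtain ⟨N, hN4, hN⟩ := exists_lower (1 / (2 + ε))
    (one_div_lt_one_div_of_lt (by norm_num) (by linarith))
  have hc0 : 0 < 1 / (2 + ε) := by positivity
  have hnn : ∀ p : ℕ, (0 : ℝ) ≤ 1 / (p : ℝ) := fun p => by positivity
  have hN0 : (0 : ℝ) < N := by
    have : 0 < N := by omega
    exact_mod_cast this
  refine ⟨N * (2 * Real.exp ((2 + ε) + 1)), by positivity, fun lam hlam => ?_⟩
  set E : ℝ := Real.exp ((2 + ε) * (lam + 1) + 1) with hE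
  have hE1 : 1 ≤ E := Real.one_le_exp (by positivity)
  set K : ℕ := ⌈E⌉₊ with hK
  have hK1 : E ≤ K := Nat.le_ceil _
  have hK2 : (K : ℝ) ≤ 2 * E := by
    have := (Nat.ceil_lt_add_one (a := E) (by linarith)).le
    linarith
  have hKpos : 1 ≤ K := by
    have : (1 : ℝ) ≤ K := by linarith
    exact_mod_cast this
  have main : ∀ n : ℕ, N ≤ n → lam ≤ ∑ p ∈ primesMod n (n ^ K), (1 : ℝ) / p := by
    intro n hn
    have hn4 : 4 ≤ n := by omega
    have hnR : (4 : ℝ) ≤ n := by exact_mod_cast hn4
    have hn0 : (0 : ℝ) < n := by linarith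
    have hle : n ≤ n ^ K := Nat.le_self_pow (by omega) n
    obtain ⟨j, hj⟩ := Nat.exists_eq_add_of_le hle
    have h := abel hc0.le hN4 hN n hn j
    rw [← hj] at h
    have h1 : 0 ≤ ((primesMod 0 (n ^ K)).card : ℝ) / ((n ^ K : ℕ) : ℝ) := by positivity
    have h2 : ((primesMod 0 n).card : ℝ) / n ≤ 1 := by
      rw [div_le_one hn0]
      have : (primesMod 0 n).card ≤ n := by
        calc (primesMod 0 n).card ≤ (Finset.Ioc 0 n).card := card_filter_le _ _
          _ = n := by simp
      exact_mod_cast this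
    have hlogn : 1 < Real.log n := by
      rw [Real.lt_log_iff_exp_lt hn0]
      have := Real.exp_one_lt_d9
      linarith
    have h3 : Real.log (Real.log ((n : ℝ) + 1)) ≤ Real.log (Real.log n) + 1 := by
      have h4 : Real.log ((n : ℝ) + 1) ≤ 2 * Real.log n := by
        rw [← Real.log_rpow hn0]
        apply Real.log_le_log (by linarith)
        norm_num
        nlinarith
      have h5 : 0 < Real.log ((n : ℝ) + 1) := Real.log_pos (by linarith)
      calc Real.log (Real.log ((n : ℝ) + 1)) ≤ Real.log (2 * Real.log n) :=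
            Real.log_le_log h5 h4
        _ = Real.log 2 + Real.log (Real.log n) :=
            Real.log_mul (by norm_num) (by linarith)
        _ ≤ Real.log (Real.log n) + 1 := by
            have := Real.log_two_lt_d9
            linarith
    have h6 : Real.log K + Real.log (Real.log n) ≤
        Real.log (Real.log (((n ^ K : ℕ) : ℝ) + 1)) := by
      have hK0 : (0 : ℝ) < K := by linarith
      rw [← Real.log_mul hK0.ne' (by linarith), ← Real.log_pow]
      have h7 : 0 < Real.log ((n : ℝ) ^ K) := by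
        rw [Real.log_pow]
        have : 0 < Real.log n := by linarith
        positivity
      apply Real.log_le_log h7
      apply Real.log_le_log (by positivity)
      push_cast
      linarith
    have h8 : (2 + ε) * (lam + 1) + 1 ≤ Real.log K := by
      have h9 := Real.log_le_log (by positivity) hK1
      rwa [hE, Real.log_exp] at h9
    have h10 : lam + 1 ≤ 1 / (2 + ε) * (Real.log K - 1) := by
      rw [one_div, inv_mul_eq_div, le_div_iff₀ (by positivity)]
      linarith
    have h11 : 1 / (2 + ε) * (Real.log K - 1) ≤ 1 / (2 + ε) *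
        (Real.log (Real.log (((n ^ K : ℕ) : ℝ) + 1)) - Real.log (Real.log ((n : ℝ) + 1))) := by
      apply mul_le_mul_of_nonneg_left _ hc0.le
      linarith
    linarith
  refine ⟨N * K, Nat.mul_pos (by omega) (by omega), ?_, fun y hy => ?_⟩
  · push_cast
    calc (N : ℝ) * K ≤ N * (2 * E) := by gcongr
      _ = N * (2 * Real.exp ((2 + ε) + 1)) * Real.exp ((2 + ε) * lam) := by
          rw [hE, show (2 + ε) * (lam + 1) + 1 = ((2 + ε) + 1) + (2 + ε) * lam by ring,
            Real.exp_add]
          ring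
  · change lam ≤ ∑ p ∈ primesMod y (y ^ (N * K)), (1 : ℝ) / p
    by_cases hyN : N ≤ y
    · refine (main y hyN).trans (sum_primesMod_mono le_rfl ?_ _ hnn)
      refine Nat.pow_le_pow_right (by omega) ?_
      exact Nat.le_mul_of_pos_left _ (by omega)
    · refine (main N le_rfl).trans (sum_primesMod_mono (by omega) ?_ _ hnn)
      rw [pow_mul]
      refine Nat.pow_le_pow_left ?_ _
      calc N ≤ 2 ^ N := Nat.lt_two_pow_self.le
        _ ≤ y ^ N := Nat.pow_le_pow_left hy _

end Vale.Agent.P015.R3.H7
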