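import Vale.Agent.P015.Bdl.B1

/-! # P015: Mertens lower bound for primes one modulo four with the right constant (ROW M) -/

namespace Vale.Agent.P015.R3.H7.M946

open Real Filter Topology Finset Vale.Agent.P015

/-- the next point -/
def nx (q n : ℕ) : ℕ := n + n / q

lemma le_nx (q n : ℕ) : n ≤ nx q n := Nat.le_add_right _ _

lemma nx_le {q : ℕ} (_hq : 1 ≤ q) (n : ℕ) : ((nx q n : ℕ) : ℝ) ≤ n * (1 + 1 / q) := by
  unfold nx
  push_cast
  have h1 : ((n / q : ℕ) : ℝ) ≤ n / q := Nat.cast_div_le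
  have h2 : (n : ℝ) * (1 + 1 / q) = n + n / q := by ring
  rw [h2]
  linarith

lemma le_nx' {q : ℕ} (hq : 1 ≤ q) (n : ℕ) : (n : ℝ) * (1 + 1 / q) - 1 ≤ ((nx q n : ℕ) : ℝ) := by
  unfold nx
  push_cast
  have hq0 : (0 : ℝ) < q := by exact_mod_cast hq
  have h1 : (n : ℝ) / q < ((n / q : ℕ) : ℝ) + 1 := by
    rw [div_lt_iff₀ hq0]
    have h3 : n < (n / q + 1) * q := by
      rw [mul_comm]
      exact Nat.lt_mul_div_succ n (by omega)
    exact_mod_cast h3
  have h2 : (n : ℝ) * (1 + 1 / q) = n + n / q := by ring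
  rw [h2]
  linarith

lemma tendsto_nx (q : ℕ) : Tendsto (fun n : ℕ => ((nx q n : ℕ) : ℝ)) atTop atTop :=
  tendsto_natCast_atTop_atTop.comp (tendsto_atTop_mono (le_nx q) tendsto_id)

/-- one step -/
lemma step (q : ℕ) (hq : 1 ≤ q) (η : ℝ) (hη : 0 < η) (hη1 : η < 1) :
    ∃ N : ℕ, 4 ≤ N ∧ ∀ n : ℕ, N ≤ n →
      (1 - η) / (2 * (q + 1)) / Real.log n ≤ ∑ p ∈ primesMod n (nx q n), (1 : ℝ) / p := by
  have hq0 : (0 : ℝ) < q := by exact_mod_cast hq
  have hq1 : (1 : ℝ) ≤ q := by exact_mod_cast hq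
  set a : ℝ := η / (16 * q) with ha
  have ha0 : 0 < a := by positivity
  have haq : a * q = η / 16 := by rw [ha]; field_simp
  have ha16 : a ≤ η / 16 := by
    rw [← haq]; nlinarith
  have hunit : IsUnit (1 : ZMod 4) := isUnit_one
  have h := Vale.Agent.PNT.piAP_mul_log_div_tendsto (q := 4) (a := (1 : ZMod 4)) hunit
  have htot : (Nat.totient 4 : ℝ) = 2 := by
    have : Nat.totient 4 = 2 := by decide
    rw [this]; norm_num
  rw [htot] at h
  have hn : Tendsto (fun n : ℕ => (n : ℝ)) atTop atTop := tendsto_natCast_atTop_atTop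
  have hup := (h.comp hn).eventually (gt_mem_nhds (show (2 : ℝ)⁻¹ < 1 / 2 + a by
    rw [← one_div]; linarith))
  have hlo := (h.comp (tendsto_nx q)).eventually (lt_mem_nhds (show (1 / 2 - a : ℝ) < (2:ℝ)⁻¹ by
    rw [← one_div]; linarith))
  have hlog : ∀ᶠ n : ℕ in atTop, Real.log 2 / a ≤ Real.log n :=
    (Real.tendsto_log_atTop.comp hn).eventually (eventually_ge_atTop _)
  have hna : ∀ᶠ n : ℕ in atTop, 1 / a ≤ (n : ℝ) := hn.eventually (eventually_ge_atTop _)
  obtain ⟨N, hN⟩ := Filter.eventually_atTop.mp (hup.and (hlo.and (hlog.and hna)))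
  refine ⟨max N 4, le_max_right _ _, fun n hn' => ?_⟩
  obtain ⟨h1, h2, h3, h4⟩ := hN n ((le_max_left _ _).trans hn')
  have hn4 : 4 ≤ n := (le_max_right _ _).trans hn'
  have hn0 : (0 : ℝ) < n := by
    have : 0 < n := by omega
    exact_mod_cast this
  rw [div_le_iff₀ ha0] at h3 h4
  have hl2 : 0 < Real.log 2 := Real.log_pos (by norm_num)
  have hln : 0 < Real.log n := by
    by_contra hcon
    push Not at hcon
    nlinarith
  simp only [Function.comp] at h1 h2
  rw [piAP_nat] at h1 h2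
  have hm1 := nx_le hq n
  have hm2 := le_nx' hq n
  set m := nx q n with hm
  have hnm : n ≤ m := le_nx q n
  have hm0 : (0 : ℝ) < m := lt_of_lt_of_le hn0 (by exact_mod_cast hnm)
  have hm3 : (m : ℝ) ≤ 2 * n := by
    refine hm1.trans ?_
    have : (1 : ℝ) / q ≤ 1 := by
      rw [div_le_one hq0]; exact hq1
    nlinarith
  have hlm : Real.log m ≤ (1 + a) * Real.log n := by
    have h5 : Real.log m ≤ Real.log (2 * n) := Real.log_le_log hm0 hm3
    rw [Real.log_mul (by norm_num) hn0.ne'] at h5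
    linarith
  rw [div_lt_iff₀ hn0] at h1
  rw [lt_div_iff₀ hm0] at h2
  set A : ℝ := ((primesMod 0 m).card : ℝ) with hA
  set B : ℝ := ((primesMod 0 n).card : ℝ) with hB
  set C : ℝ := ((primesMod n m).card : ℝ) with hC
  have hABC : A = B + C := by
    have := sum_primesMod_add (a := 0) (b := n) (c := m) (by omega) hnm (fun _ => (1 : ℝ))
    simpa only [hA, hB, hC, sum_const, nsmul_eq_mul, mul_one] using this
  have hA0 : 0 ≤ A := Nat.cast_nonneg _
  have hC0 : 0 ≤ C := Nat.cast_nonneg _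
  have hCl : (1 - η) / (2 * q) * n ≤ C * Real.log n := by
    have e1 : (1 / 2 - a) * m ≤ (1 + a) * (A * Real.log n) := by
      have : A * Real.log m ≤ A * ((1 + a) * Real.log n) := mul_le_mul_of_nonneg_left hlm hA0
      nlinarith
    have e2 : (1 / 2 - a) * (n * (1 + 1 / q - a)) ≤ (1 / 2 - a) * m := by
      refine mul_le_mul_of_nonneg_left ?_ (by linarith)
      have : (n : ℝ) * (1 + 1 / q - a) = n * (1 + 1 / q) - a * n := by ring
      rw [this]
      nlinarith
    have e3 : (1 + a) * (C * Real.log n) ≥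
        ((1 / 2 - a) * (1 + 1 / q - a) - (1 + a) * (1 / 2 + a)) * n := by
      have : (1 + a) * (B * Real.log n) ≤ (1 + a) * ((1 / 2 + a) * n) :=
        mul_le_mul_of_nonneg_left h1.le (by linarith)
      rw [hABC] at e1
      nlinarith
    have e4 : (1 + a) * ((1 - η) / (2 * q)) ≤
        (1 / 2 - a) * (1 + 1 / q - a) - (1 + a) * (1 / 2 + a) := by
      have f1 : (1 / 2 - a) * (1 + 1 / q - a) - (1 + a) * (1 / 2 + a) -
          (1 + a) * ((1 - η) / (2 * q)) =
          (1 - 6 * (a * q) - 2 * a - (1 + a) * (1 - η)) / (2 * q) := by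
        field_simp
        ring
      have f2 : 0 ≤ (1 - 6 * (a * q) - 2 * a - (1 + a) * (1 - η)) / (2 * q) := by
        refine div_nonneg ?_ (by positivity)
        rw [haq]
        nlinarith
      linarith
    have e5 : (1 + a) * ((1 - η) / (2 * q) * n) ≤ (1 + a) * (C * Real.log n) := by
      refine le_trans ?_ e3
      rw [← mul_assoc]
      exact mul_le_mul_of_nonneg_right e4 hn0.le
    exact le_of_mul_le_mul_left e5 (by linarith)
  have hC2 : (1 - η) / (2 * q) * n / Real.log n ≤ C := by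
    rw [div_le_iff₀ hln]; exact hCl
  calc (1 - η) / (2 * (q + 1)) / Real.log n
      = ((1 - η) / (2 * q) * n / Real.log n) * (1 / (n * (1 + 1 / q))) := by
        field_simp
    _ ≤ C * (1 / m) := by
        refine mul_le_mul hC2 ?_ (by positivity) hC0
        exact one_div_le_one_div_of_le hm0 hm1
    _ = ∑ p ∈ primesMod n m, (1 : ℝ) / m := by
        rw [Finset.sum_const, nsmul_eq_mul]
    _ ≤ ∑ p ∈ primesMod n m, (1 : ℝ) / p := by
        refine Finset.sum_le_sum fun p hp => ?_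
        rw [mem_primesMod] at hp
        have hp0 : (0 : ℝ) < p := by exact_mod_cast hp.2.1.pos
        refine one_div_le_one_div_of_le hp0 ?_
        exact_mod_cast hp.1.2

/-- many steps -/
lemma chain {q N : ℕ} (hq : 1 ≤ q) (hN4 : 4 ≤ N) {c : ℝ} (hc : 0 ≤ c)
    (hN : ∀ n : ℕ, N ≤ n → c / Real.log n ≤ ∑ p ∈ primesMod n (nx q n), (1 : ℝ) / p)
    (n : ℕ) (hn : N ≤ n) (J : ℕ) :
    ∑ i ∈ Finset.range J, c / (Real.log n + i / q) ≤
        ∑ p ∈ primesMod n ((nx q)^[J] n), (1 : ℝ) / p ∧ n ≤ (nx q)^[J] n ∧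
      Real.log ((nx q)^[J] n : ℕ) ≤ Real.log n + J / q := by
  have hq0 : (0 : ℝ) < q := by exact_mod_cast hq
  induction J with
  | zero =>
    refine ⟨?_, le_rfl, by simp⟩
    rw [Finset.sum_range_zero]
    exact Finset.sum_nonneg fun p _ => by positivity
  | succ J ih =>
    obtain ⟨ih1, ih2, ih3⟩ := ih
    rw [Function.iterate_succ_apply']
    set M := (nx q)^[J] n with hM
    have hM4 : 4 ≤ M := hN4.trans (hn.trans ih2)
    have hM0 : (0 : ℝ) < M := by
      have : 0 < M := by omega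
      exact_mod_cast this
    have hMl : 0 < Real.log M := Real.log_pos (by
      have : 1 < M := by omega
      exact_mod_cast this)
    refine ⟨?_, ih2.trans (le_nx q M), ?_⟩
    · rw [Finset.sum_range_succ, sum_primesMod_add ih2 (le_nx q M)]
      refine add_le_add ih1 (le_trans ?_ (hN M (hn.trans ih2)))
      exact div_le_div_of_nonneg_left hc hMl ih3
    · have h1 : Real.log (nx q M : ℕ) ≤ Real.log ((M : ℝ) * (1 + 1 / q)) := by
        refine Real.log_le_log ?_ (nx_le hq M)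
        exact lt_of_lt_of_le hM0 (by exact_mod_cast le_nx q M)
      rw [Real.log_mul hM0.ne' (by positivity)] at h1
      have h2 := Real.log_le_sub_one_of_pos (x := 1 + 1 / (q : ℝ)) (by positivity)
      push_cast
      have h3 : ((J : ℝ) + 1) / q = J / q + 1 / q := by ring
      rw [h3]
      linarith

lemma harm {q : ℕ} (hq : 1 ≤ q) {L : ℝ} (hL : 0 < L) (J : ℕ) :
    q * (Real.log (L + J / q) - Real.log L) ≤ ∑ i ∈ Finset.range J, 1 / (L + i / q) := by
  have hq0 : (0 : ℝ) < q := by exact_mod_cast hq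
  induction J with
  | zero => simp
  | succ J ih =>
    rw [Finset.sum_range_succ]
    have h0 : (0 : ℝ) < L + J / q := by positivity
    have h1 : q * (Real.log (L + (J + 1 : ℕ) / q) - Real.log (L + J / q)) ≤ 1 / (L + J / q) := by
      rw [← Real.log_div (by positivity) h0.ne']
      have h2 := Real.log_le_sub_one_of_pos (x := (L + (J + 1 : ℕ) / q) / (L + J / q))
        (by positivity)
      have h3 : (L + (J + 1 : ℕ) / q) / (L + J / q) - 1 = 1 / (L + J / q) / q := by
        push_cast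
        field_simp
        ring
      rw [h3, le_div_iff₀ hq0] at h2
      linarith
    linarith

/-- **ROW M.** -/
theorem mertens_half (ε : ℝ) (hε : 0 < ε) : ∃ A : ℝ, 0 < A ∧ ∀ lam : ℝ, 0 ≤ lam →
    ∃ K : ℕ, 1 ≤ K ∧ (K : ℝ) ≤ A * Real.exp ((2 + ε) * lam) ∧ ∀ y : ℕ, 2 ≤ y →
      lam ≤ ∑ p ∈ (Finset.Ioc y (y ^ K)).filter (fun p => p.Prime ∧ p % 4 = 1), (1 : ℝ) / p := by
  set η : ℝ := min ε 1 / 8 with hη
  have hη0 : 0 < η := by positivity
  have hη8 : η ≤ 1 / 8 := by
    rw [hη]; linarith [min_le_right ε 1]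
  have hηε : η ≤ ε / 8 := by
    rw [hη]; linarith [min_le_left ε 1]
  set q : ℕ := ⌈1 / η⌉₊ with hq
  have hqη : 1 / η ≤ q := Nat.le_ceil _
  have hq0 : (0 : ℝ) < q := lt_of_lt_of_le (by positivity) hqη
  have hq1 : 1 ≤ q := by
    have : 0 < q := by exact_mod_cast hq0
    omega
  obtain ⟨N, hN4, hN⟩ := step q hq1 η hη0 (by linarith)
  set c : ℝ := (1 - η) / (2 * (q + 1)) with hc
  have hc0 : 0 < c := div_pos (by linarith) (by positivity)
  have hcq : 1 ≤ c * q * (2 + ε) := by
    have h1 : 1 - η ≤ (q : ℝ) / (q + 1) := by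
      rw [le_div_iff₀ (by positivity)]
      rw [div_le_iff₀ hη0] at hqη
      nlinarith
    have h2 : c * q = (1 - η) / 2 * (q / (q + 1)) := by
      rw [hc]; field_simp
    rw [h2]
    have h3 : (1 - η) / 2 * (1 - η) ≤ (1 - η) / 2 * (q / (q + 1)) :=
      mul_le_mul_of_nonneg_left h1 (by linarith)
    have e1 : η * ε ≤ 1 / 8 * ε := mul_le_mul_of_nonneg_right hη8 hε.le
    have e2 : 0 ≤ η ^ 2 * (2 + ε) := by positivity
    have e3 : (1 - η) / 2 * (1 - η) * (2 + ε) =
        1 + ε / 2 - 2 * η - η * ε + η ^ 2 * (2 + ε) / 2 := by ring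
    have h4 : 1 ≤ (1 - η) / 2 * (1 - η) * (2 + ε) := by
      rw [e3]; linarith
    exact h4.trans (mul_le_mul_of_nonneg_right h3 (by linarith))
  have hN0 : (0 : ℝ) < N := by
    have : 0 < N := by omega
    exact_mod_cast this
  refine ⟨3 * N, by positivity, fun lam hlam => ?_⟩
  have hnn : ∀ p : ℕ, (0 : ℝ) ≤ 1 / (p : ℝ) := fun p => by positivity
  set X : ℝ := Real.exp ((2 + ε) * lam) with hX
  have hX1 : 1 ≤ X := Real.one_le_exp (by positivity)
  set K₀ : ℕ := ⌈X⌉₊ + 1 with hK₀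
  have hKX : X ≤ (K₀ : ℝ) - 1 := by
    rw [hK₀]; push_cast
    have := Nat.le_ceil X
    linarith
  have hKX2 : (K₀ : ℝ) ≤ 3 * X := by
    rw [hK₀]; push_cast
    have := (Nat.ceil_lt_add_one (a := X) (by linarith)).le
    linarith
  have main : ∀ n : ℕ, N ≤ n → lam ≤ ∑ p ∈ primesMod n (n ^ K₀), (1 : ℝ) / p := by
    intro n hn
    have hn4 : 4 ≤ n := hN4.trans hn
    have hn0 : (0 : ℝ) < n := by
      have : 0 < n := by omega
      exact_mod_cast this
    set L : ℝ := Real.log n with hL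
    have hL1 : 1 ≤ L := by
      rw [hL, Real.le_log_iff_exp_le hn0]
      have h1 : Real.exp 1 ≤ 3 := by
        have := Real.exp_one_lt_d9
        linarith
      have h2 : (4 : ℝ) ≤ n := by exact_mod_cast hn4
      linarith
    set J : ℕ := ⌊q * ((K₀ - 1 : ℝ) * L)⌋₊ with hJ
    have hJ1 : (J : ℝ) ≤ q * ((K₀ - 1 : ℝ) * L) := by
      refine Nat.floor_le ?_
      have : 0 ≤ (K₀ : ℝ) - 1 := by linarith
      positivity
    have hJ2 : q * ((K₀ - 1 : ℝ) * L) < J + 1 := Nat.lt_floor_add_one _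
    have hJ3 : (J : ℝ) / q ≤ (K₀ - 1 : ℝ) * L := by
      rw [div_le_iff₀ hq0]; linarith
    have hJ4 : (K₀ - 1 : ℝ) * L - 1 ≤ (J : ℝ) / q := by
      rw [le_div_iff₀ hq0]
      have : (1 : ℝ) ≤ q := by exact_mod_cast hq1
      nlinarith
    obtain ⟨h1, h2, h3⟩ := chain hq1 hN4 hc0.le hN n hn J
    have h4 : (nx q)^[J] n ≤ n ^ K₀ := by
      have h5 : (((nx q)^[J] n : ℕ) : ℝ) ≤ ((n ^ K₀ : ℕ) : ℝ) := by
        have h6 : (0 : ℝ) < (((nx q)^[J] n : ℕ) : ℝ) :=
          lt_of_lt_of_le hn0 (by exact_mod_cast h2)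
        have h7 : (0 : ℝ) < ((n ^ K₀ : ℕ) : ℝ) := by push_cast; positivity
        rw [← Real.log_le_log_iff h6 h7]
        push_cast
        rw [Real.log_pow]
        refine h3.trans ?_
        rw [← hL]
        linarith
      exact_mod_cast h5
    have h5 : c * (q * (Real.log (L + J / q) - Real.log L)) ≤
        ∑ i ∈ Finset.range J, c / (L + i / q) := by
      have h6 := mul_le_mul_of_nonneg_left (harm hq1 (L := L) (by linarith) J) hc0.le
      refine h6.trans (le_of_eq ?_)
      rw [Finset.mul_sum]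
      exact Finset.sum_congr rfl fun i _ => by ring
    have h6 : (2 + ε) * lam ≤ Real.log (L + J / q) - Real.log L := by
      have hK1 : 0 < (K₀ : ℝ) - 1 := by linarith
      have h7 : Real.log ((K₀ - 1 : ℝ) * L) ≤ Real.log (L + J / q) := by
        refine Real.log_le_log (by positivity) ?_
        linarith
      rw [Real.log_mul hK1.ne' (by linarith)] at h7
      have h8 : (2 + ε) * lam ≤ Real.log ((K₀ : ℝ) - 1) := by
        rw [Real.le_log_iff_exp_le hK1]
        exact hKX
      linarith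
    have h7 : lam ≤ c * (q * (Real.log (L + J / q) - Real.log L)) := by
      have h8 : c * (q * ((2 + ε) * lam)) ≤ c * (q * (Real.log (L + J / q) - Real.log L)) := by
        gcongr
      nlinarith
    exact h7.trans (h5.trans (h1.trans (sum_primesMod_mono le_rfl h4 _ hnn)))
  refine ⟨N * K₀, Nat.mul_pos (by omega) (by omega), ?_, fun y hy => ?_⟩
  · push_cast
    nlinarith
  · change lam ≤ ∑ p ∈ primesMod y (y ^ (N * K₀)), (1 : ℝ) / p
    by_cases hyN : N ≤ y
    · refine (main y hyN).trans (sum_primesMod_mono le_rfl ?_ _ hnn)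
      refine Nat.pow_le_pow_right (by omega) ?_
      exact Nat.le_mul_of_pos_left _ (by omega)
    · refine (main N le_rfl).trans (sum_primesMod_mono (by omega) ?_ _ hnn)
      rw [pow_mul]
      refine Nat.pow_le_pow_left ?_ _
      calc N ≤ 2 ^ N := Nat.lt_two_pow_self.le
        _ ≤ y ^ N := Nat.pow_le_pow_left hy _

end Vale.Agent.P015.R3.H7.M946
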