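import Mathlib

/-! P015.GrowingSteps, row F: the number of forbidden residue pairs. -/

namespace Vale.Agent.P015.R3.H7

theorem forb_card {p : ℕ} [Fact p.Prime] (hp : p ≠ 2) (j : ZMod p) (hj : j * j = -1)
    (X Y : Finset (ZMod p)) :
    (Finset.univ.filter (fun u : ZMod p × ZMod p => u.1 + j * u.2 ∈ X ∨ u.1 - j * u.2 ∈ Y)).card +
      X.card * Y.card = (X.card + Y.card) * p := by
  classical
  have hprime : p.Prime := Fact.out
  have h2 : (2 : ZMod p) ≠ 0 := by
    intro h
    have h3 : ((2 : ℕ) : ZMod p) = 0 := by exact_mod_cast h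
    rw [ZMod.natCast_eq_zero_iff] at h3
    have h4 := (Nat.prime_dvd_prime_iff_eq hprime Nat.prime_two).1 h3
    exact hp h4
  have hj0 : j ≠ 0 := by
    rintro rfl
    rw [mul_zero] at hj
    exact one_ne_zero (neg_eq_zero.1 hj.symm)
  let e : ZMod p × ZMod p ≃ ZMod p × ZMod p :=
    { toFun := fun u => (u.1 + j * u.2, u.1 - j * u.2)
      invFun := fun w => ((w.1 + w.2) / 2, (w.1 - w.2) / (2 * j))
      left_inv := by
        rintro ⟨u, v⟩
        refine Prod.ext ?_ ?_
        · change (u + j * v + (u - j * v)) / 2 = u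
          field_simp
          ring
        · change (u + j * v - (u - j * v)) / (2 * j) = v
          field_simp
          ring
      right_inv := by
        rintro ⟨x, y⟩
        refine Prod.ext ?_ ?_
        · change (x + y) / 2 + j * ((x - y) / (2 * j)) = x
          field_simp
          ring
        · change (x + y) / 2 - j * ((x - y) / (2 * j)) = y
          field_simp
          ring }
  have h1 : (Finset.univ.filter
      (fun u : ZMod p × ZMod p => u.1 + j * u.2 ∈ X ∨ u.1 - j * u.2 ∈ Y)).card =
      (Finset.univ.filter (fun w : ZMod p × ZMod p => w.1 ∈ X ∨ w.2 ∈ Y)).card := by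
    refine Finset.card_nbij' e e.symm ?_ ?_ ?_ ?_
    · intro u hu
      rw [Finset.mem_coe, Finset.mem_filter] at hu ⊢
      exact ⟨Finset.mem_univ _, hu.2⟩
    · intro w hw
      rw [Finset.mem_coe, Finset.mem_filter] at hw ⊢
      refine ⟨Finset.mem_univ _, ?_⟩
      have h3 : ((e.symm w).1 + j * (e.symm w).2, (e.symm w).1 - j * (e.symm w).2) = w :=
        e.apply_symm_apply w
      rw [← h3] at hw
      exact hw.2
    · intro u _
      exact e.symm_apply_apply u
    · intro w _
      exact e.apply_symm_apply w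
  have h3 : Finset.univ.filter (fun w : ZMod p × ZMod p => w.1 ∈ X ∨ w.2 ∈ Y) =
      (X ×ˢ Finset.univ) ∪ (Finset.univ ×ˢ Y) := by
    ext w
    simp
  have h4 : (X ×ˢ (Finset.univ : Finset (ZMod p))) ∩ ((Finset.univ : Finset (ZMod p)) ×ˢ Y) =
      X ×ˢ Y := by
    ext w
    simp
  have h5 := Finset.card_union_add_card_inter (X ×ˢ (Finset.univ : Finset (ZMod p)))
    ((Finset.univ : Finset (ZMod p)) ×ˢ Y)
  rw [h4, Finset.card_product, Finset.card_product, Finset.card_product, Finset.card_univ,
    ZMod.card] at h5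
  rw [h1, h3, h5]
  ring

end Vale.Agent.P015.R3.H7
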