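import Mathlib

namespace Vale.Agent.P015.R3.H7

/-- ROW F. -/
theorem forb_card {p : ℕ} [Fact p.Prime] (hp : p ≠ 2) (j : ZMod p) (hj : j * j = -1)
    (X Y : Finset (ZMod p)) :
    (Finset.univ.filter (fun u : ZMod p × ZMod p =>
      u.1 + j * u.2 ∈ X ∨ u.1 - j * u.2 ∈ Y)).card + X.card * Y.card = (X.card + Y.card) * p := by
  classical
  have h2 : (2 : ZMod p) ≠ 0 := by
    intro h
    have h3 : ((2 : ℕ) : ZMod p) = 0 := by exact_mod_cast h
    rw [ZMod.natCast_eq_zero_iff] at h3
    exact hp ((Nat.prime_dvd_prime_iff_eq (Fact.out : p.Prime) Nat.prime_two).1 h3)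
  have hj0 : j ≠ 0 := by
    rintro rfl
    have : (1 : ZMod p) = 0 := by linear_combination (1 : ZMod p) * hj
    exact one_ne_zero this
  let e : ZMod p × ZMod p ≃ ZMod p × ZMod p :=
    { toFun := fun u => (u.1 + j * u.2, u.1 - j * u.2)
      invFun := fun w => ((w.1 + w.2) / 2, (w.1 - w.2) / (2 * j))
      left_inv := by
        rintro ⟨a, b⟩
        ext
        · change ((a + j * b) + (a - j * b)) / 2 = a
          field_simp
          ring
        · change ((a + j * b) - (a - j * b)) / (2 * j) = b
          field_simp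
          ring
      right_inv := by
        rintro ⟨a, b⟩
        ext
        · change (a + b) / 2 + j * ((a - b) / (2 * j)) = a
          field_simp
          ring
        · change (a + b) / 2 - j * ((a - b) / (2 * j)) = b
          field_simp
          ring }
  have h1 : (Finset.univ.filter (fun u : ZMod p × ZMod p =>
      u.1 + j * u.2 ∈ X ∨ u.1 - j * u.2 ∈ Y)).card =
      ((X ×ˢ (Finset.univ : Finset (ZMod p))) ∪ ((Finset.univ : Finset (ZMod p)) ×ˢ Y)).card := by
    apply Finset.card_equiv e
    intro u
    simp only [Finset.mem_filter, Finset.mem_univ, true_and, Finset.mem_union,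
      Finset.mem_product, and_true]
    rfl
  have h3 : (X ×ˢ (Finset.univ : Finset (ZMod p))) ∩ ((Finset.univ : Finset (ZMod p)) ×ˢ Y) =
      X ×ˢ Y := by
    ext ⟨a, b⟩
    simp [Finset.mem_inter, Finset.mem_product]
  have h4 := Finset.card_union_add_card_inter (X ×ˢ (Finset.univ : Finset (ZMod p)))
    ((Finset.univ : Finset (ZMod p)) ×ˢ Y)
  rw [h3, Finset.card_product, Finset.card_product, Finset.card_product, Finset.card_univ,
    ZMod.card] at h4
  rw [h1, h4]
  ring

end Vale.Agent.P015.R3.H7
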