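import Vale.Agent.P015.Bdl.B1

set_option linter.all false

/-! # P015 (row M): a Mertens lower bound for the primes one mod four with the right constant -/

namespace Vale.Agent.P015.R3.H7

open Vale.Agent.P015 Real Filter Topology Finset

lemma sum_step (m : ℕ) :
    ∑ p ∈ primesMod m (m + 1), (1 : ℝ) / p =
      ((primesMod m (m + 1)).card : ℝ) / ((m : ℝ) + 1) := by
  have h : ∀ p ∈ primesMod m (m + 1), (1 : ℝ) / p = 1 / ((m : ℝ) + 1) := by
    intro p hp
    rw [mem_primesMod] at hp
    have : p = m + 1 := by omega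
    subst this
    push_cast
    rfl
  rw [Finset.sum_congr rfl h, Finset.sum_const, nsmul_eq_mul]
  ring

lemma card_step (m : ℕ) : ((primesMod 0 (m + 1)).card : ℝ) =
    (primesMod 0 m).card + (primesMod m (m + 1)).card := by
  have := sum_primesMod_add (a := 0) (b := m) (c := m + 1) (by omega) (by omega)
    (fun _ => (1 : ℝ))
  simpa only [sum_const, nsmul_eq_mul, mul_one] using this

lemma loglog_step (M : ℝ) (hM : 2 ≤ M) :
    Real.log (Real.log (M + 2)) - Real.log (Real.log (M + 1)) ≤
      1 / ((M + 1) * Real.log M) := by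
  have l0 : 0 < Real.log M := Real.log_pos (by linarith)
  have l1 : Real.log M ≤ Real.log (M + 1) := Real.log_le_log (by linarith) (by linarith)
  have l1' : 0 < Real.log (M + 1) := by linarith
  have l2 : 0 < Real.log (M + 2) := Real.log_pos (by linarith)
  rw [← Real.log_div l2.ne' l1'.ne']
  have h1 := Real.log_le_sub_one_of_pos (div_pos l2 l1')
  have h2 : Real.log (M + 2) - Real.log (M + 1) ≤ 1 / (M + 1) := by
    rw [← Real.log_div (by linarith) (by linarith)]
    have h3 := Real.log_le_sub_one_of_pos (x := (M + 2) / (M + 1)) (by positivity)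
    have h4 : (M + 2) / (M + 1) - 1 = 1 / (M + 1) := by
      have : M + 1 ≠ 0 := by linarith
      field_simp
      ring
    linarith
  calc _ ≤ Real.log (M + 2) / Real.log (M + 1) - 1 := h1
    _ = (Real.log (M + 2) - Real.log (M + 1)) / Real.log (M + 1) := by
        rw [sub_div, div_self l1'.ne']
    _ ≤ (1 / (M + 1)) / Real.log M := div_le_div₀ (by positivity) h2 l0 l1
    _ = _ := by rw [div_div]

lemma abel {c : ℝ} (hc : 0 ≤ c) {N : ℕ} (hN2 : 2 ≤ N)
    (hN : ∀ n : ℕ, N ≤ n → c * n / Real.log n ≤ (primesMod 0 n).card) (n : ℕ) (hn : N ≤ n)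
    (j : ℕ) :
    ((primesMod 0 (n + j)).card : ℝ) / ((n : ℝ) + j) - ((primesMod 0 n).card : ℝ) / n +
      c * (Real.log (Real.log ((n : ℝ) + j + 1)) - Real.log (Real.log ((n : ℝ) + 1))) ≤
      ∑ p ∈ primesMod n (n + j), (1 : ℝ) / p := by
  induction j with
  | zero => simp [primesMod]
  | succ j ih =>
    have hs := sum_primesMod_add (a := n) (b := n + j) (c := n + j + 1) (by omega) (by omega)
      (fun p => (1 : ℝ) / p)
    have h1 := sum_step (n + j)
    have h2 := card_step (n + j)
    have hM2 : (2 : ℝ) ≤ (n : ℝ) + j := by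
      have : 2 ≤ n + j := by omega
      exact_mod_cast this
    have h3 := loglog_step ((n : ℝ) + j) hM2
    have h4 := hN (n + j) (by omega)
    rw [show n + (j + 1) = n + j + 1 by ring, hs, h1, h2]
    push_cast at h4 ⊢
    rw [show (n : ℝ) + (j + 1) = n + j + 1 by ring, show (n : ℝ) + j + 1 + 1 = n + j + 2 by ring]
    set M : ℝ := (n : ℝ) + j with hM
    set P : ℝ := ((primesMod 0 (n + j)).card : ℝ)
    set Q : ℝ := ((primesMod (n + j) (n + j + 1)).card : ℝ)
    have l0 : 0 < Real.log M := Real.log_pos (by linarith)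
    have hM0 : 0 < M := by linarith
    have h5 : c * (1 / ((M + 1) * Real.log M)) ≤ P / M - P / (M + 1) := by
      have e1 : P / M - P / (M + 1) = P / (M * (M + 1)) := by
        field_simp
        ring
      rw [e1, le_div_iff₀ (by positivity)]
      refine le_trans (le_of_eq ?_) h4
      field_simp
    have h6 := mul_le_mul_of_nonneg_left h3 hc
    have e2 : (P + Q) / (M + 1) = P / (M + 1) + Q / (M + 1) := add_div _ _ _
    rw [e2]
    linarith

lemma exists_low {c : ℝ} (hc : c < 1 / 2) :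
    ∃ N : ℕ, 4 ≤ N ∧ ∀ n : ℕ, N ≤ n → c * n / Real.log n ≤ (primesMod 0 n).card := by
  have h := Vale.Agent.PNT.piAP_mul_log_div_tendsto (q := 4) (a := (1 : ZMod 4)) isUnit_one
  have htot : (Nat.totient 4 : ℝ) = 2 := by
    have : Nat.totient 4 = 2 := by decide
    rw [this]; norm_num
  rw [htot] at h
  have hn : Tendsto (fun n : ℕ => (n : ℝ)) atTop atTop := tendsto_natCast_atTop_atTop
  have hlo := (h.comp hn).eventually (lt_mem_nhds (show c < (2 : ℝ)⁻¹ by linarith))
  obtain ⟨N, hN⟩ := Filter.eventually_atTop.mp hlo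
  refine ⟨max N 4, le_max_right _ _, fun n hn' => ?_⟩
  have h1 := hN n ((le_max_left _ _).trans hn')
  have hn4 : 4 ≤ n := (le_max_right _ _).trans hn'
  have hn4' : (4 : ℝ) ≤ n := by exact_mod_cast hn4
  have hln : 0 < Real.log n := Real.log_pos (by linarith)
  simp only [Function.comp] at h1
  rw [piAP_nat, lt_div_iff₀ (by linarith)] at h1
  rw [div_le_iff₀ hln]
  exact h1.le

theorem mertens_half (ε : ℝ) (hε : 0 < ε) : ∃ A : ℝ, 0 < A ∧ ∀ lam : ℝ, 0 ≤ lam →
    ∃ K : ℕ, 1 ≤ K ∧ (K : ℝ) ≤ A * Real.exp ((2 + ε) * lam) ∧ ∀ y : ℕ, 2 ≤ y →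
      lam ≤ ∑ p ∈ (Finset.Ioc y (y ^ K)).filter (fun p => p.Prime ∧ p % 4 = 1), (1 : ℝ) / p := by
  set c : ℝ := 1 / (2 + ε) with hc
  have hc0 : 0 < c := by positivity
  have hc2 : c < 1 / 2 := by
    rw [hc]
    exact one_div_lt_one_div_of_lt (by norm_num) (by linarith)
  obtain ⟨N, hN4, hN⟩ := exists_low hc2
  have hN0 : (4 : ℝ) ≤ N := by exact_mod_cast hN4
  have hnn : ∀ p : ℕ, (0 : ℝ) ≤ 1 / (p : ℝ) := fun p => by positivity
  refine ⟨3 * N * Real.exp (2 + ε), by positivity, fun lam hlam => ?_⟩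
  set K : ℕ := ⌈2 * Real.exp ((2 + ε) * (lam + 1))⌉₊ with hK
  have hK1 : 2 * Real.exp ((2 + ε) * (lam + 1)) ≤ K := Nat.le_ceil _
  have hE1 : 1 ≤ Real.exp ((2 + ε) * (lam + 1)) := Real.one_le_exp (by positivity)
  have hK2 : (K : ℝ) ≤ 3 * Real.exp ((2 + ε) * (lam + 1)) := by
    have := (Nat.ceil_lt_add_one (a := 2 * Real.exp ((2 + ε) * (lam + 1))) (by positivity)).le
    linarith
  have hK0 : (2 : ℝ) ≤ K := by linarith
  have hK0' : 1 ≤ K := by
    have : (1 : ℝ) ≤ K := by linarith
    exact_mod_cast this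
  have hlogK : Real.log 2 + (2 + ε) * (lam + 1) ≤ Real.log K := by
    have h1 := Real.log_le_log (by positivity) hK1
    rwa [Real.log_mul (by norm_num) (Real.exp_pos _).ne', Real.log_exp] at h1
  -- exponent for `n ≥ N`
  have main : ∀ n : ℕ, N ≤ n → lam ≤ ∑ p ∈ primesMod n (n ^ K), (1 : ℝ) / p := by
    intro n hn
    have hn4 : (4 : ℝ) ≤ n := hN0.trans (by exact_mod_cast hn)
    have hle : n ≤ n ^ K := Nat.le_self_pow (by omega) n
    obtain ⟨j, hj⟩ := Nat.exists_eq_add_of_le hle
    have h := abel hc0.le (by omega) hN n hn j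
    rw [← hj] at h
    have hj' : (n : ℝ) + j = (n : ℝ) ^ K := by
      have : ((n ^ K : ℕ) : ℝ) = ((n + j : ℕ) : ℝ) := by rw [hj]
      push_cast at this
      exact this.symm
    rw [hj'] at h
    have hP : ((primesMod 0 n).card : ℝ) / n ≤ 1 := by
      rw [div_le_one (by linarith)]
      have : (primesMod 0 n).card ≤ n := by
        refine (Finset.card_filter_le _ _).trans ?_
        simp
      exact_mod_cast this
    have hP' : 0 ≤ ((primesMod 0 (n ^ K)).card : ℝ) / (n : ℝ) ^ K := by positivity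
    have ln : 0 < Real.log n := Real.log_pos (by linarith)
    have hp1 : (1 : ℝ) < (n : ℝ) ^ K := one_lt_pow₀ (by linarith) (by omega)
    have g1 : Real.log K + Real.log (Real.log n) ≤ Real.log (Real.log ((n : ℝ) ^ K + 1)) := by
      rw [← Real.log_mul (by linarith) ln.ne', ← Real.log_pow]
      exact Real.log_le_log (Real.log_pos hp1)
        (Real.log_le_log (by linarith) (by linarith))
    have g2 : Real.log (Real.log ((n : ℝ) + 1)) ≤ Real.log 2 + Real.log (Real.log n) := by
      rw [← Real.log_mul (by norm_num) ln.ne']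
      refine Real.log_le_log (Real.log_pos (by linarith)) ?_
      have : (2 : ℝ) * Real.log n = Real.log ((n : ℝ) ^ 2) := by rw [Real.log_pow]; norm_num
      rw [this]
      exact Real.log_le_log (by linarith) (by nlinarith)
    have g3 : lam + 1 ≤ c * (Real.log (Real.log ((n : ℝ) ^ K + 1)) -
        Real.log (Real.log ((n : ℝ) + 1))) := by
      have g4 : (2 + ε) * (lam + 1) ≤ Real.log (Real.log ((n : ℝ) ^ K + 1)) -
        Real.log (Real.log ((n : ℝ) + 1)) := by linarith
      have g5 := mul_le_mul_of_nonneg_left g4 hc0.le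
      have g6 : c * ((2 + ε) * (lam + 1)) = lam + 1 := by
        rw [hc]
        have : 2 + ε ≠ 0 := by positivity
        field_simp
      linarith
    linarith
  refine ⟨N * K, Nat.mul_pos (by omega) (by omega), ?_, fun y hy => ?_⟩
  · push_cast
    have e : Real.exp ((2 + ε) * (lam + 1)) = Real.exp (2 + ε) * Real.exp ((2 + ε) * lam) := by
      rw [← Real.exp_add]
      congr 1
      ring
    calc (N : ℝ) * K ≤ N * (3 * Real.exp ((2 + ε) * (lam + 1))) :=
          mul_le_mul_of_nonneg_left hK2 (by positivity)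
      _ = _ := by rw [e]; ring
  · change lam ≤ ∑ p ∈ primesMod y (y ^ (N * K)), (1 : ℝ) / p
    by_cases hyN : N ≤ y
    · refine (main y hyN).trans (sum_primesMod_mono le_rfl ?_ _ hnn)
      refine Nat.pow_le_pow_right (by omega) ?_
      exact Nat.le_mul_of_pos_left _ (by omega)
    · refine (main N le_rfl).trans (sum_primesMod_mono (by omega) ?_ _ hnn)
      rw [pow_mul]
      refine Nat.pow_le_pow_left ?_ _
      calc N ≤ 2 ^ N := Nat.lt_two_pow_self.le
        _ ≤ y ^ N := Nat.pow_le_pow_left hy _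

end Vale.Agent.P015.R3.H7
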