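import Vale.Agent.P015.Bdl.B1

/-!
# P015 : the two-dimensional Brun sieve
-/

namespace Vale.Agent.P015.R3.H7

open Finset Vale.Agent.P015

/-- The points of a square lying in given residue classes mod `m` and in prescribed sets of
residues modulo the primes of `P`. -/
theorem count_sieve2 (P : Finset ℕ) (hP : ∀ p ∈ P, p.Prime)
    (F : ∀ p : ℕ, Finset (ZMod p × ZMod p)) (a b : ℤ) (T : ℕ) :
    ∀ (m : ℕ), 0 < m → (∀ p ∈ P, Nat.Coprime m p) → ∀ c d : ℤ,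
    |(((((Finset.Ico a (a + T)) ×ˢ (Finset.Ico b (b + T))).filter (fun x : ℤ × ℤ =>
        (x.1 ≡ c [ZMOD m] ∧ x.2 ≡ d [ZMOD m]) ∧
        ∀ p ∈ P, ((x.1 : ZMod p), (x.2 : ZMod p)) ∈ F p)).card : ℕ) : ℝ) -
      ((T : ℝ) / m) ^ 2 * ∏ p ∈ P, (((F p).card : ℝ) / (p : ℝ) ^ 2)| ≤
      (∏ p ∈ P, ((F p).card : ℝ)) * (2 * ((T : ℝ) / (m * ∏ p ∈ P, (p : ℝ))) + 1) := by
  classical
  induction P using Finset.induction_on with
  | empty =>
    intro m hm _ c d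
    have h1 := count_residue a T m hm c
    have h2 := count_residue b T m hm d
    have h3 : (((Finset.Ico a (a + T)) ×ˢ (Finset.Ico b (b + T))).filter (fun x : ℤ × ℤ =>
        (x.1 ≡ c [ZMOD m] ∧ x.2 ≡ d [ZMOD m]) ∧
        ∀ p ∈ (∅ : Finset ℕ), ((x.1 : ZMod p), (x.2 : ZMod p)) ∈ F p)) =
        ((Finset.Ico a (a + T)).filter (fun t : ℤ => t ≡ c [ZMOD m])) ×ˢ
          ((Finset.Ico b (b + T)).filter (fun t : ℤ => t ≡ d [ZMOD m])) := by
      ext x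
      simp only [Finset.mem_filter, Finset.mem_product]
      constructor
      · rintro ⟨⟨h4, h5⟩, ⟨h6, h7⟩, _⟩
        exact ⟨⟨h4, h6⟩, ⟨h5, h7⟩⟩
      · rintro ⟨⟨h4, h6⟩, ⟨h5, h7⟩⟩
        exact ⟨⟨h4, h5⟩, ⟨h6, h7⟩, fun p hp => absurd hp (Finset.notMem_empty p)⟩
    rw [h3, Finset.card_product, Nat.cast_mul]
    set N1 : ℝ := ((((Finset.Ico a (a + T)).filter (fun t : ℤ => t ≡ c [ZMOD m])).card : ℕ) : ℝ)
      with hN1
    set N2 : ℝ := ((((Finset.Ico b (b + T)).filter (fun t : ℤ => t ≡ d [ZMOD m])).card : ℕ) : ℝ)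
      with hN2
    have hX : 0 ≤ (T : ℝ) / m := by positivity
    simp only [Finset.prod_empty, mul_one, one_mul]
    set X : ℝ := (T : ℝ) / m with hXd
    have h4 : N1 * N2 - X ^ 2 = (N1 - X) * (N2 - X) + X * (N1 - X) + X * (N2 - X) := by ring
    rw [h4]
    refine (abs_add_le _ _).trans ?_
    have h5 : |(N1 - X) * (N2 - X) + X * (N1 - X)| ≤ 1 + X := by
      refine (abs_add_le _ _).trans (add_le_add ?_ ?_)
      · rw [abs_mul]
        calc |N1 - X| * |N2 - X| ≤ 1 * 1 := mul_le_mul h1 h2 (abs_nonneg _) zero_le_one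
          _ = 1 := one_mul 1
      · rw [abs_mul, abs_of_nonneg hX]
        calc X * |N1 - X| ≤ X * 1 := mul_le_mul_of_nonneg_left h1 hX
          _ = X := mul_one X
    have h6 : |X * (N2 - X)| ≤ X := by
      rw [abs_mul, abs_of_nonneg hX]
      calc X * |N2 - X| ≤ X * 1 := mul_le_mul_of_nonneg_left h2 hX
        _ = X := mul_one X
    linarith
  | insert q P hq ih =>
    intro m hm hcop c d
    have hqp : q.Prime := hP q (Finset.mem_insert_self q P)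
    have hPp : ∀ p ∈ P, p.Prime := fun p hp => hP p (Finset.mem_insert_of_mem hp)
    have ih' := ih hPp (m * q) (Nat.mul_pos hm hqp.pos) (by
      intro p hp
      refine Nat.Coprime.mul_left (hcop p (Finset.mem_insert_of_mem hp)) ?_
      rw [Nat.coprime_primes hqp (hPp p hp)]
      rintro rfl
      exact hq hp)
    have hmq : Nat.Coprime m q := hcop q (Finset.mem_insert_self q P)
    choose c' hc' using crt_rep m q hqp.ne_zero hmq c
    choose d' hd' using crt_rep m q hqp.ne_zero hmq d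
    have hdecomp : (((Finset.Ico a (a + T)) ×ˢ (Finset.Ico b (b + T))).filter
        (fun x : ℤ × ℤ => (x.1 ≡ c [ZMOD m] ∧ x.2 ≡ d [ZMOD m]) ∧
        ∀ p ∈ insert q P, ((x.1 : ZMod p), (x.2 : ZMod p)) ∈ F p)) =
        (F q).biUnion (fun y => ((Finset.Ico a (a + T)) ×ˢ (Finset.Ico b (b + T))).filter
          (fun x : ℤ × ℤ => (x.1 ≡ c' y.1 [ZMOD (m * q : ℕ)] ∧ x.2 ≡ d' y.2 [ZMOD (m * q : ℕ)]) ∧
            ∀ p ∈ P, ((x.1 : ZMod p), (x.2 : ZMod p)) ∈ F p)) := by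
      ext x
      simp only [Finset.mem_filter, Finset.mem_biUnion, Finset.mem_insert, forall_eq_or_imp]
      constructor
      · rintro ⟨h1, ⟨h2, h2'⟩, h3, h4⟩
        exact ⟨((x.1 : ZMod q), (x.2 : ZMod q)), h3, h1,
          ⟨(hc' _ x.1).2 ⟨h2, rfl⟩, (hd' _ x.2).2 ⟨h2', rfl⟩⟩, h4⟩
      · rintro ⟨y, hy, h1, ⟨h2, h2'⟩, h3⟩
        obtain ⟨h4, h5⟩ := (hc' y.1 x.1).1 h2
        obtain ⟨h4', h5'⟩ := (hd' y.2 x.2).1 h2'
        refine ⟨h1, ⟨h4, h4'⟩, ?_, h3⟩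
        rw [h5, h5']
        exact hy
    have hcard : (((((Finset.Ico a (a + T)) ×ˢ (Finset.Ico b (b + T))).filter
        (fun x : ℤ × ℤ => (x.1 ≡ c [ZMOD m] ∧ x.2 ≡ d [ZMOD m]) ∧
        ∀ p ∈ insert q P, ((x.1 : ZMod p), (x.2 : ZMod p)) ∈ F p)).card : ℕ) : ℝ) =
        ∑ y ∈ F q, (((((Finset.Ico a (a + T)) ×ˢ (Finset.Ico b (b + T))).filter
          (fun x : ℤ × ℤ => (x.1 ≡ c' y.1 [ZMOD (m * q : ℕ)] ∧ x.2 ≡ d' y.2 [ZMOD (m * q : ℕ)]) ∧
            ∀ p ∈ P, ((x.1 : ZMod p), (x.2 : ZMod p)) ∈ F p)).card : ℕ) : ℝ) := by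
      rw [hdecomp, Finset.card_biUnion, Nat.cast_sum]
      intro y _ y' _ hyy
      rw [Function.onFun, Finset.disjoint_left]
      intro x hx hx'
      simp only [Finset.mem_filter] at hx hx'
      apply hyy
      exact Prod.ext
        (((hc' y.1 x.1).1 hx.2.1.1).2.symm.trans ((hc' y'.1 x.1).1 hx'.2.1.1).2)
        (((hd' y.2 x.2).1 hx.2.1.2).2.symm.trans ((hd' y'.2 x.2).1 hx'.2.1.2).2)
    rw [hcard, Finset.prod_insert hq, Finset.prod_insert hq, Finset.prod_insert hq]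
    have hsum : ((T : ℝ) / m) ^ 2 * ((((F q).card : ℝ) / (q : ℝ) ^ 2) *
        ∏ p ∈ P, (((F p).card : ℝ) / (p : ℝ) ^ 2)) =
        ∑ y ∈ F q, (((T : ℝ) / (m * q : ℕ)) ^ 2 *
          ∏ p ∈ P, (((F p).card : ℝ) / (p : ℝ) ^ 2)) := by
      rw [Finset.sum_const, nsmul_eq_mul, Nat.cast_mul]
      generalize ∏ p ∈ P, (((F p).card : ℝ) / (p : ℝ) ^ 2) = X
      rw [div_mul_eq_div_div]
      ring
    rw [hsum, ← Finset.sum_sub_distrib]
    refine le_trans (Finset.abs_sum_le_sum_abs _ _) ?_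
    refine le_trans (Finset.sum_le_sum fun y _ => ih' (c' y.1) (d' y.2)) ?_
    rw [Finset.sum_const, nsmul_eq_mul, Nat.cast_mul]
    have e : (m : ℝ) * q * ∏ p ∈ P, (p : ℝ) = m * (q * ∏ p ∈ P, (p : ℝ)) := by ring
    rw [e]
    exact le_of_eq (by ring)

/-- Brun's pure sieve on a square. -/
theorem brun_sieve2 (P : Finset ℕ) (hP : ∀ p ∈ P, p.Prime)
    (F : ∀ p : ℕ, Finset (ZMod p × ZMod p)) (κ Z : ℕ) (hF : ∀ p ∈ P, (F p).card ≤ κ * p)
    (hF2 : ∀ p ∈ P, ((F p).card : ℝ) ≤ (p : ℝ) ^ 2) (hZ1 : 1 ≤ Z) (hZ : ∀ p ∈ P, p ≤ Z)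
    (a b : ℤ) (T r : ℕ) (hr : Even r) :
    ((((Finset.Ico a (a + T)) ×ˢ (Finset.Ico b (b + T))).filter
      (fun x : ℤ × ℤ => ∀ p ∈ P, ((x.1 : ZMod p), (x.2 : ZMod p)) ∉ F p)).card : ℝ) ≤
      (T : ℝ) ^ 2 * (∏ p ∈ P, (1 - ((F p).card : ℝ) / (p : ℝ) ^ 2) +
        esy P (fun p => ((F p).card : ℝ) / (p : ℝ) ^ 2) (r + 1)) +
        (2 * T + (Z : ℝ) ^ r) * ∑ j ∈ Finset.range (r + 1), esy P (fun _ => (κ : ℝ)) j := by
  classical
  set g : ℕ → ℝ := fun p => ((F p).card : ℝ) / (p : ℝ) ^ 2 with hg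
  set B := (Finset.Ico a (a + T)) ×ˢ (Finset.Ico b (b + T)) with hB
  set ind : ℤ × ℤ → ℕ → ℝ :=
    fun x p => if ((x.1 : ZMod p), (x.2 : ZMod p)) ∈ F p then (1 : ℝ) else 0 with hind
  have hind01 : ∀ t p, 0 ≤ ind t p ∧ ind t p ≤ 1 := by
    intro t p
    simp only [hind]
    split_ifs <;> norm_num
  have hcard : ((B.filter
      (fun x : ℤ × ℤ => ∀ p ∈ P, ((x.1 : ZMod p), (x.2 : ZMod p)) ∉ F p)).card : ℝ) =
      ∑ t ∈ B, ∏ p ∈ P, (1 - ind t p) := by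
    rw [Finset.card_filter]
    push_cast
    refine Finset.sum_congr rfl fun t _ => ?_
    rw [← prod_ind]
    refine Finset.prod_congr rfl fun p _ => ?_
    simp only [hind]
    split_ifs <;> (clear * -; simp_all)
  have hstep : ∀ t, ∏ p ∈ P, (1 - ind t p) ≤ tsy P (ind t) r := by
    intro t
    have h := (trunc_bounds P (ind t) (fun p _ => hind01 t p) r).1
    rw [hr.neg_one_pow, one_mul] at h
    linarith
  -- counts
  have hcount : ∀ A ⊆ P, A.card ≤ r → |(∑ t ∈ B, ∏ p ∈ A, ind t p) -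
      (T : ℝ) ^ 2 * ∏ p ∈ A, g p| ≤ (2 * T + (Z : ℝ) ^ r) * ∏ p ∈ A, (κ : ℝ) := by
    intro A hAP hAr
    have h := count_sieve2 A (fun p hp => hP p (hAP hp)) F a b T 1 one_pos (by simp) 0 0
    have h1 : ((((Finset.Ico a (a + T)) ×ˢ (Finset.Ico b (b + T))).filter (fun x : ℤ × ℤ =>
        (x.1 ≡ 0 [ZMOD (1 : ℕ)] ∧ x.2 ≡ 0 [ZMOD (1 : ℕ)]) ∧
        ∀ p ∈ A, ((x.1 : ZMod p), (x.2 : ZMod p)) ∈ F p)).card : ℝ) =
        ∑ t ∈ B, ∏ p ∈ A, ind t p := by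
      rw [Finset.card_filter]
      push_cast
      refine Finset.sum_congr rfl fun t _ => ?_
      simp only [hind]
      rw [prod_ind]
      have h2 : t.1 ≡ 0 [ZMOD 1] := Int.modEq_one
      have h3 : t.2 ≡ 0 [ZMOD 1] := Int.modEq_one
      simp [h2, h3]
    rw [h1, Nat.cast_one, div_one, one_mul] at h
    refine h.trans ?_
    have hpp : ∀ p ∈ A, (0 : ℝ) < p := fun p hp => by exact_mod_cast (hP p (hAP hp)).pos
    have hprod : 0 < ∏ p ∈ A, (p : ℝ) := Finset.prod_pos hpp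
    have h2 : ∏ p ∈ A, ((F p).card : ℝ) ≤ (∏ p ∈ A, (κ : ℝ)) * ∏ p ∈ A, (p : ℝ) := by
      rw [← Finset.prod_mul_distrib]
      refine Finset.prod_le_prod (fun p _ => Nat.cast_nonneg _) fun p hp => ?_
      exact_mod_cast hF p (hAP hp)
    have h3 : ∏ p ∈ A, (p : ℝ) ≤ (Z : ℝ) ^ r := by
      calc ∏ p ∈ A, (p : ℝ) ≤ ∏ _p ∈ A, (Z : ℝ) :=
            Finset.prod_le_prod (fun p _ => Nat.cast_nonneg _) fun p hp => by
              exact_mod_cast hZ p (hAP hp)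
        _ = (Z : ℝ) ^ A.card := by rw [Finset.prod_const]
        _ ≤ (Z : ℝ) ^ r := pow_le_pow_right₀ (by exact_mod_cast hZ1) hAr
    have hκ : 0 ≤ ∏ p ∈ A, (κ : ℝ) := Finset.prod_nonneg fun _ _ => Nat.cast_nonneg _
    calc (∏ p ∈ A, ((F p).card : ℝ)) * (2 * ((T : ℝ) / ∏ p ∈ A, (p : ℝ)) + 1)
        ≤ ((∏ p ∈ A, (κ : ℝ)) * ∏ p ∈ A, (p : ℝ)) * (2 * ((T : ℝ) / ∏ p ∈ A, (p : ℝ)) + 1) :=
          mul_le_mul_of_nonneg_right h2 (by positivity)
      _ = (2 * T + ∏ p ∈ A, (p : ℝ)) * ∏ p ∈ A, (κ : ℝ) := by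
          generalize ∏ p ∈ A, (κ : ℝ) = u
          generalize ∏ p ∈ A, (p : ℝ) = v at hprod ⊢
          field_simp
      _ ≤ _ := mul_le_mul_of_nonneg_right (by linarith) hκ
  have hsum : ∑ t ∈ B, tsy P (ind t) r =
      ∑ j ∈ Finset.range (r + 1), (-1 : ℝ) ^ j * ∑ A ∈ P.powersetCard j,
        ∑ t ∈ B, ∏ p ∈ A, ind t p := by
    unfold tsy esy
    rw [Finset.sum_comm]
    refine Finset.sum_congr rfl fun j _ => ?_
    rw [← Finset.mul_sum, Finset.sum_comm]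
  have hbound : ∑ t ∈ B, tsy P (ind t) r ≤
      (T : ℝ) ^ 2 * tsy P g r +
        (2 * T + (Z : ℝ) ^ r) * ∑ j ∈ Finset.range (r + 1), esy P (fun _ => (κ : ℝ)) j := by
    rw [hsum]
    unfold tsy
    rw [Finset.mul_sum, Finset.mul_sum, ← Finset.sum_add_distrib]
    refine Finset.sum_le_sum fun j hjr => ?_
    have hjr' : j ≤ r := Nat.lt_succ_iff.1 (Finset.mem_range.1 hjr)
    unfold esy
    have hj : (T : ℝ) ^ 2 * ((-1 : ℝ) ^ j * ∑ A ∈ P.powersetCard j, ∏ p ∈ A, g p) +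
        (2 * T + (Z : ℝ) ^ r) * ∑ A ∈ P.powersetCard j, ∏ p ∈ A, (κ : ℝ) =
        ∑ A ∈ P.powersetCard j, ((-1 : ℝ) ^ j * ((T : ℝ) ^ 2 * ∏ p ∈ A, g p) +
          (2 * T + (Z : ℝ) ^ r) * ∏ p ∈ A, (κ : ℝ)) := by
      rw [Finset.sum_add_distrib, Finset.mul_sum, Finset.mul_sum, Finset.mul_sum]
      congr 1
      exact Finset.sum_congr rfl fun A _ => by ring
    rw [hj, Finset.mul_sum]
    refine Finset.sum_le_sum fun A hA => ?_
    have hA' := Finset.mem_powersetCard.1 hA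
    have h := hcount A hA'.1 (by rw [hA'.2]; exact hjr')
    rw [abs_le] at h
    rcases neg_one_pow_eq_or ℝ j with h1 | h1
    · rw [h1]; linarith only [h]
    · rw [h1]; linarith only [h]
  have hmain : tsy P g r ≤ ∏ p ∈ P, (1 - g p) + esy P g (r + 1) := by
    have h := (trunc_bounds P g (fun p hp => by
      have hp0 : (0 : ℝ) < p := by exact_mod_cast (hP p hp).pos
      constructor
      · simp only [hg]; positivity
      · simp only [hg]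
        rw [div_le_one (by positivity)]
        exact hF2 p hp) r).2
    rw [hr.neg_one_pow, one_mul] at h
    linarith only [h]
  rw [hcard]
  calc ∑ t ∈ B, ∏ p ∈ P, (1 - ind t p)
      ≤ ∑ t ∈ B, tsy P (ind t) r := Finset.sum_le_sum fun t _ => hstep t
    _ ≤ _ := hbound
    _ ≤ _ := by
      have hT : (0 : ℝ) ≤ (T : ℝ) ^ 2 := by positivity
      have := mul_le_mul_of_nonneg_left hmain hT
      linarith only [this]

/-- Row S: the two-dimensional Brun sieve. -/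
theorem brun2 (P : Finset ℕ) (hP : ∀ p ∈ P, p.Prime) (F : ∀ p : ℕ, Finset (ZMod p × ZMod p))
    (κ Z : ℕ) (hF : ∀ p ∈ P, (F p).card ≤ κ * p)
    (hF2 : ∀ p ∈ P, ((F p).card : ℝ) ≤ (p : ℝ) ^ 2) (hZ1 : 1 ≤ Z) (hZ : ∀ p ∈ P, p ≤ Z)
    (a b : ℤ) (T r : ℕ) (hr : Even r)
    (hmu : 8 * ∑ p ∈ P, ((F p).card : ℝ) / (p : ℝ) ^ 2 ≤ r + 1) :
    ((((Finset.Ico a (a + T)) ×ˢ (Finset.Ico b (b + T))).filter (fun x : ℤ × ℤ =>
      ∀ p ∈ P, ((x.1 : ZMod p), (x.2 : ZMod p)) ∉ F p)).card : ℝ) ≤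
      2 * (T : ℝ) ^ 2 * Real.exp (-∑ p ∈ P, ((F p).card : ℝ) / (p : ℝ) ^ 2) +
        (2 * T + (Z : ℝ) ^ r) * (1 + κ * (P.card : ℝ)) ^ r := by
  have h0 := brun_sieve2 P hP F κ Z hF hF2 hZ1 hZ a b T r hr
  have h1 := brun_error P κ r
  have hg0 : ∀ p ∈ P, 0 ≤ ((F p).card : ℝ) / (p : ℝ) ^ 2 := fun p _ => by positivity
  have hg : ∀ p ∈ P, ((F p).card : ℝ) / (p : ℝ) ^ 2 ≤ 1 := by
    intro p hp
    have hp0 : (0 : ℝ) < p := by exact_mod_cast (hP p hp).pos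
    rw [div_le_one (by positivity)]
    exact hF2 p hp
  have h2 := prod_one_sub_le_exp P (fun p => ((F p).card : ℝ) / (p : ℝ) ^ 2) hg
  set mu := ∑ p ∈ P, ((F p).card : ℝ) / (p : ℝ) ^ 2 with hmudef
  have hmu0 : 0 ≤ mu := Finset.sum_nonneg hg0
  have h3 : esy P (fun p => ((F p).card : ℝ) / (p : ℝ) ^ 2) (r + 1) ≤ Real.exp (-mu) := by
    have h4 := esy_le P (fun p => ((F p).card : ℝ) / (p : ℝ) ^ 2) hg0 (r + 1)
    rw [← hmudef] at h4
    refine le_trans h4 ?_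
    have h5 := Real.pow_div_factorial_le_exp (x := ((r : ℝ) + 1)) (by positivity) (r + 1)
    have hr1 : (0 : ℝ) < (r : ℝ) + 1 := by positivity
    have h6 : mu ^ (r + 1) / ((r + 1).factorial : ℝ) =
        (mu / ((r : ℝ) + 1)) ^ (r + 1) * (((r : ℝ) + 1) ^ (r + 1) / ((r + 1).factorial : ℝ)) := by
      rw [div_pow]; (clear * -; field_simp)
    rw [h6]
    have h7 : mu / ((r : ℝ) + 1) ≤ 1 / 8 := by
      rw [div_le_div_iff₀ hr1 (by norm_num)]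
      linarith only [hmu]
    have h8 : (mu / ((r : ℝ) + 1)) ^ (r + 1) ≤ (1 / 8 : ℝ) ^ (r + 1) :=
      pow_le_pow_left₀ (div_nonneg hmu0 hr1.le) h7 _
    have h9 : (1 / 8 : ℝ) ≤ Real.exp (-2) := by
      rw [Real.exp_neg]
      rw [one_div]
      apply inv_anti₀ (Real.exp_pos _)
      have : Real.exp 2 = Real.exp 1 * Real.exp 1 := by rw [← Real.exp_add]; norm_num
      rw [this]
      have h10 := Real.exp_one_lt_d9
      have h11 := Real.exp_pos 1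
      nlinarith only [h10, h11]
    calc (mu / ((r : ℝ) + 1)) ^ (r + 1) * (((r : ℝ) + 1) ^ (r + 1) / ((r + 1).factorial : ℝ))
        ≤ (1 / 8 : ℝ) ^ (r + 1) * Real.exp ((r : ℝ) + 1) :=
          mul_le_mul h8 h5 (by (clear * -; positivity)) (by positivity)
      _ ≤ (Real.exp (-2)) ^ (r + 1) * Real.exp ((r : ℝ) + 1) := by
          apply mul_le_mul_of_nonneg_right _ (Real.exp_pos _).le
          exact pow_le_pow_left₀ (by norm_num) h9 _
      _ = Real.exp (-((r : ℝ) + 1)) := by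
          rw [← Real.exp_nat_mul, ← Real.exp_add]
          congr 1
          push_cast
          ring
      _ ≤ Real.exp (-mu) := by
          apply Real.exp_le_exp.2
          linarith only [hmu, hmu0]
  have hT : (0 : ℝ) ≤ (T : ℝ) ^ 2 := by positivity
  have h12 : (T : ℝ) ^ 2 * (∏ p ∈ P, (1 - ((F p).card : ℝ) / (p : ℝ) ^ 2) +
      esy P (fun p => ((F p).card : ℝ) / (p : ℝ) ^ 2) (r + 1)) ≤
      (T : ℝ) ^ 2 * (Real.exp (-mu) + Real.exp (-mu)) :=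
    mul_le_mul_of_nonneg_left (add_le_add h2 h3) hT
  have h13 : (2 * (T : ℝ) + (Z : ℝ) ^ r) * ∑ j ∈ Finset.range (r + 1), esy P (fun _ => (κ : ℝ)) j ≤
      (2 * T + (Z : ℝ) ^ r) * (1 + κ * (P.card : ℝ)) ^ r :=
    mul_le_mul_of_nonneg_left h1 (by positivity)
  linarith only [h0, h12, h13]

end Vale.Agent.P015.R3.H7
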